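import Mathlib

/-!
Transport out of a measure without point masses, and a map that realises a given plan up to a
small displacement of the first coordinate.
-/

set_option autoImplicit false

open MeasureTheory ProbabilityTheory Set Filter Topology unitInterval
open scoped ENNReal

namespace Crest.Agent.R130

theorem continuous_cdf (ν : Measure ℝ) [IsProbabilityMeasure ν] [NullSingletonClass ν] :
    Continuous (cdf ν) := by
  rw [continuous_iff_continuousAt]
  intro x
  rw [(monotone_cdf ν).continuousAt_iff_leftLim_eq_rightLim, StieltjesFunction.rightLim_eq]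
  have h1 := (cdf ν).measure_singleton x
  rw [measure_cdf, measure_singleton] at h1
  have h2 : cdf ν x - Function.leftLim (cdf ν) x ≤ 0 := ENNReal.ofReal_eq_zero.1 h1.symm
  have h3 : Function.leftLim (cdf ν) x ≤ cdf ν x := (monotone_cdf ν).leftLim_le le_rfl
  linarith

theorem map_cdf_uniform (ν : Measure ℝ) [IsProbabilityMeasure ν] [NullSingletonClass ν] :
    ∃ U : ℝ → I, Measurable U ∧ ν.map U = volume := by
  have hc := continuous_cdf ν
  let U : ℝ → I := fun x => ⟨cdf ν x, cdf_nonneg ν x, cdf_le_one ν x⟩
  have hU : Measurable U := hc.measurable.subtype_mk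
  refine ⟨U, hU, ?_⟩
  refine Measure.ext_of_Iic _ _ fun t => ?_
  rw [Measure.map_apply hU measurableSet_Iic, unitInterval.volume_Iic]
  have hS : U ⁻¹' Iic t = {x | cdf ν x ≤ (t : ℝ)} := by
    ext x; simp only [mem_preimage, mem_Iic, mem_ofPred_eq, U]; rfl
  rw [hS]
  rcases eq_or_lt_of_le t.2.2 with h1 | h1
  · have : {x | cdf ν x ≤ (t : ℝ)} = univ := by
      ext x; simp only [mem_ofPred_eq, mem_univ, iff_true]; rw [h1]; exact cdf_le_one ν x
    rw [this, h1]; simp
  rcases Set.eq_empty_or_nonempty {x | cdf ν x ≤ (t : ℝ)} with hE | hne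
  · rw [hE]
    have h0 : (t : ℝ) ≤ 0 := by
      refine ge_of_tendsto (tendsto_cdf_atBot ν) (Eventually.of_forall fun x => ?_)
      by_contra hx
      have : x ∈ {x | cdf ν x ≤ (t : ℝ)} := (not_le.1 hx).le
      rw [hE] at this
      exact this
    simp [ENNReal.ofReal_eq_zero.2 h0]
  · have hbdd : BddAbove {x | cdf ν x ≤ (t : ℝ)} := by
      obtain ⟨b, hb⟩ := eventually_atTop.1 ((tendsto_cdf_atTop ν).eventually (lt_mem_nhds h1))
      refine ⟨b, fun x hx => ?_⟩
      by_contra hxb
      exact absurd (hb x (not_le.1 hxb).le) (not_lt.2 hx)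
    have hcl : IsClosed {x | cdf ν x ≤ (t : ℝ)} := isClosed_le hc continuous_const
    have hmem := hcl.csSup_mem hne hbdd
    set x₀ := sSup {x | cdf ν x ≤ (t : ℝ)} with hx₀
    have hEq : {x | cdf ν x ≤ (t : ℝ)} = Iic x₀ := by
      ext x
      constructor
      · intro hx; exact le_csSup hbdd hx
      · intro hx; exact (monotone_cdf ν hx).trans hmem
    have hge : (t : ℝ) ≤ cdf ν x₀ := by
      have h2 : Tendsto (cdf ν) (𝓝[>] x₀) (𝓝 (cdf ν x₀)) :=
        hc.continuousAt.tendsto.mono_left nhdsWithin_le_nhds
      refine ge_of_tendsto h2 (eventually_nhdsWithin_of_forall fun x hx => ?_)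
      by_contra hlt
      have : x ∈ {x | cdf ν x ≤ (t : ℝ)} := (not_le.1 hlt).le
      rw [hEq] at this
      exact absurd (show x₀ < x from hx) (not_lt.2 this)
    rw [hEq, ← ofReal_cdf, le_antisymm hmem hge]

/-- A finite measure without point masses can be pushed to any measure of the same mass. -/
theorem exists_map_eq {X Y : Type*} [MeasurableSpace X] [StandardBorelSpace X]
    [MeasurableSpace Y] [StandardBorelSpace Y] [Nonempty Y]
    (ν : Measure X) [IsFiniteMeasure ν] [NullSingletonClass ν] (lam : Measure Y)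
    (hm : lam univ = ν univ) : ∃ R : X → Y, Measurable R ∧ ν.map R = lam := by
  by_cases h0 : ν univ = 0
  · refine ⟨fun _ => Classical.arbitrary Y, measurable_const, ?_⟩
    have h1 : ν = 0 := Measure.measure_univ_eq_zero.1 h0
    have h2 : lam = 0 := Measure.measure_univ_eq_zero.1 (hm.trans h0)
    simp [h1, h2]
  have hfin : ν univ ≠ ⊤ := measure_ne_top _ _
  have he := measurableEmbedding_embeddingReal X
  let ν' : Measure ℝ := (ν univ)⁻¹ • ν.map (embeddingReal X)
  have : IsProbabilityMeasure ν' := ⟨by
    simp only [ν', Measure.smul_apply, smul_eq_mul]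
    rw [Measure.map_apply he.measurable MeasurableSet.univ, preimage_univ,
      ENNReal.inv_mul_cancel h0 hfin]⟩
  have : NullSingletonClass ν' := ⟨fun x => by
    simp only [ν', Measure.smul_apply, smul_eq_mul]
    rw [Measure.map_apply he.measurable (measurableSet_singleton x)]
    have : (embeddingReal X ⁻¹' {x}).Subsingleton :=
      (subsingleton_singleton).preimage he.injective
    rw [this.measure_zero, mul_zero]⟩
  let lam' : Measure Y := (ν univ)⁻¹ • lam
  have : IsProbabilityMeasure lam' := ⟨by
    simp only [lam', Measure.smul_apply, smul_eq_mul]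
    rw [hm, ENNReal.inv_mul_cancel h0 hfin]⟩
  obtain ⟨U, hU, hUν⟩ := map_cdf_uniform ν'
  obtain ⟨f, hf, hfl⟩ := MeasureTheory.Measure.exists_measurable_map_eq lam'
  refine ⟨f ∘ U ∘ embeddingReal X, hf.comp (hU.comp he.measurable), ?_⟩
  have h1 : ν.map (embeddingReal X) = (ν univ) • ν' := by
    simp only [ν', smul_smul]
    rw [ENNReal.mul_inv_cancel h0 hfin, one_smul]
  have h2 : lam = (ν univ) • lam' := by
    simp only [lam', smul_smul]
    rw [ENNReal.mul_inv_cancel h0 hfin, one_smul]
  rw [← Measure.map_map hf (hU.comp he.measurable), ← Measure.map_map hU he.measurable, h1,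
    Measure.map_smul, hUν, Measure.map_smul, hfl, ← h2]

/-- A plan `π` with first marginal `μ` is the image of `μ` under a map whose first component moves
points by at most `δ`. -/
theorem exists_map_eq_near {X Y : Type*} [MetricSpace X] [SecondCountableTopology X]
    [MeasurableSpace X] [BorelSpace X] [StandardBorelSpace X] [Nonempty X]
    [MeasurableSpace Y] [StandardBorelSpace Y] [Nonempty Y]
    (μ : Measure X) [IsFiniteMeasure μ] [NullSingletonClass μ] (π : Measure (X × Y))
    (hπ : π.map Prod.fst = μ) {δ : ℝ} (hδ : 0 < δ) :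
    ∃ T : X → X × Y, Measurable T ∧ μ.map T = π ∧ ∀ᵐ x ∂μ, dist x (T x).1 ≤ δ := by
  classical
  obtain ⟨As, hAm, hAb, hAd, hAu, hAdisj⟩ :=
    SeparableSpace.exists_measurable_partition_diam_le X hδ
  have hR : ∀ n, ∃ R : X → X × Y, Measurable R ∧
      (μ.restrict (As n)).map R = π.restrict (Prod.fst ⁻¹' As n) := by
    intro n
    refine exists_map_eq _ _ ?_
    rw [Measure.restrict_apply_univ, Measure.restrict_apply_univ, ← hπ,
      Measure.map_apply measurable_fst (hAm n)]
  choose R hRm hRmap using hR
  have hex : ∀ x, ∃ n, x ∈ As n := fun x => by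
    have : x ∈ ⋃ n, As n := hAu ▸ mem_univ x
    simpa using this
  let N : X → ℕ := fun x => Nat.find (hex x)
  have hN : Measurable N := measurable_find hex hAm
  have hNmem : ∀ x, x ∈ As (N x) := fun x => Nat.find_spec (hex x)
  have hNeq : ∀ n, ∀ x ∈ As n, N x = n := by
    intro n x hx
    by_contra hne
    exact (Set.disjoint_left.1 (hAdisj hne) (hNmem x)) hx
  let T : X → X × Y := fun x => R (N x) x
  have hT : Measurable T := by
    have h1 : Measurable (fun p : X × ℕ => R p.2 p.1) :=
      measurable_from_prod_countable_left fun n => hRm n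
    exact h1.comp (measurable_id.prodMk hN)
  have hTn : ∀ n, (μ.restrict (As n)).map T = π.restrict (Prod.fst ⁻¹' As n) := by
    intro n
    rw [← hRmap n]
    refine Measure.map_congr ?_
    filter_upwards [ae_restrict_mem (hAm n)] with x hx
    simp only [T, hNeq n x hx]
  have hμ : μ = Measure.sum fun n => μ.restrict (As n) := by
    rw [← Measure.restrict_iUnion hAdisj hAm, hAu, Measure.restrict_univ]
  refine ⟨T, hT, ?_, ?_⟩
  · have hπ' : π = Measure.sum fun n => π.restrict (Prod.fst ⁻¹' As n) := by
      rw [← Measure.restrict_iUnion (fun i j hij => (hAdisj hij).preimage _)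
        (fun n => measurable_fst (hAm n)), ← preimage_iUnion, hAu, preimage_univ,
        Measure.restrict_univ]
    rw [hμ, Measure.map_sum hT.aemeasurable, hπ']
    congr 1
    funext n
    rw [hTn n]
  · rw [hμ, Measure.ae_sum_iff]
    intro n
    have h1 : ∀ᵐ p ∂(π.restrict (Prod.fst ⁻¹' As n)), p.1 ∈ As n :=
      ae_restrict_mem (measurable_fst (hAm n))
    rw [← hTn n] at h1
    have h2 := ae_of_ae_map hT.aemeasurable h1
    filter_upwards [h2, ae_restrict_mem (hAm n)] with x hx1 hx2
    exact (Metric.dist_le_diam_of_mem (hAb n) hx2 hx1).trans (hAd n)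

end Crest.Agent.R130
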