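import Mathlib
import Crest.Prelude.Def_MultiMarginal
import Crest.Agent.R130.Monge

/-!
Plans given by maps approach the cost of a plan whose points stay apart; weak duality.
-/

set_option autoImplicit false
set_option linter.unusedSectionVars false

open MeasureTheory Set Filter Topology
open scoped ENNReal
open Crest.AnalysisR.OT

namespace Crest.Agent.R130

variable {E : Type*} [NormedAddCommGroup E]

theorem enn_rpow_neg_anti {a b : ℝ≥0∞} {s : ℝ} (hs : 0 ≤ s) (h : a ≤ b) :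
    b ^ (-s) ≤ a ^ (-s) := by
  rw [ENNReal.rpow_neg, ENNReal.rpow_neg]
  exact ENNReal.inv_le_inv.2 (ENNReal.rpow_le_rpow h hs)

theorem pairCost_comm (s : ℝ) (x y : E) : pairCost s x y = pairCost s y x := by
  simp only [pairCost, norm_sub_rev]

theorem pairCost_le_of_near {s δ : ℝ} (hs : 0 ≤ s) (hδ : 0 ≤ δ) (hδ' : δ ≤ 1 / 4) {x x' y : E}
    (hx : dist x x' ≤ δ) (hy : 1 / 2 ≤ ‖x' - y‖) :
    pairCost s x y ≤ ENNReal.ofReal (1 - 2 * δ) ^ (-s) * pairCost s x' y := by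
  unfold pairCost
  rw [← ENNReal.mul_rpow_of_ne_top ENNReal.ofReal_ne_top ENNReal.ofReal_ne_top,
    ← ENNReal.ofReal_mul (by linarith)]
  refine enn_rpow_neg_anti hs (ENNReal.ofReal_le_ofReal ?_)
  have h1 : ‖x' - y‖ ≤ ‖x' - x‖ + ‖x - y‖ := norm_sub_le_norm_sub_add_norm_sub _ _ _
  rw [dist_eq_norm, norm_sub_rev] at hx
  nlinarith

variable [MeasurableSpace E] [BorelSpace E] [SecondCountableTopology E]

theorem measurable_pairCost (s : ℝ) : Measurable fun p : E × E => pairCost s p.1 p.2 := by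
  unfold pairCost
  exact ENNReal.continuous_rpow_const.measurable.comp
    (ENNReal.measurable_ofReal.comp (measurable_fst.sub measurable_snd).norm)

theorem measurable_tripleCost (s : ℝ) : Measurable (tripleCost (E := E) s) := by
  unfold tripleCost
  have h := measurable_pairCost (E := E) s
  refine Measurable.add (Measurable.add ?_ ?_) ?_
  · exact h.comp (measurable_fst.prodMk measurable_snd.fst)
  · exact h.comp (measurable_fst.prodMk measurable_snd.snd)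
  · exact h.comp (measurable_snd.fst.prodMk measurable_snd.snd)

theorem exists_monge_near [StandardBorelSpace E] {s : ℝ} (hs : 0 ≤ s) (μ : Measure E)
    [IsFiniteMeasure μ] [NullSingletonClass μ] (π : Measure (E × E × E)) (hπ : IsCoupling₃ μ π)
    (hfin : ∫⁻ p, tripleCost s p ∂π < ⊤)
    (hsep : ∀ᵐ p ∂π, 1 / 2 ≤ ‖p.1 - p.2.1‖ ∧ 1 / 2 ≤ ‖p.1 - p.2.2‖)
    (ε : ℝ≥0∞) (hε : 0 < ε) :
    ∃ T₂ T₃ : E → E, Measurable T₂ ∧ Measurable T₃ ∧ μ.map T₂ = μ ∧ μ.map T₃ = μ ∧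
      ∫⁻ x, tripleCost s (x, T₂ x, T₃ x) ∂μ < ∫⁻ p, tripleCost s p ∂π + ε := by
  set C := ∫⁻ p, tripleCost s p ∂π with hC
  have hlim : Tendsto (fun δ : ℝ => ENNReal.ofReal (1 - 2 * δ) ^ (-s) * C) (𝓝 0) (𝓝 C) := by
    have h1 : Tendsto (fun δ : ℝ => ENNReal.ofReal (1 - 2 * δ) ^ (-s)) (𝓝 0) (𝓝 1) := by
      have h2 : Continuous fun δ : ℝ => ENNReal.ofReal (1 - 2 * δ) ^ (-s) :=
        ENNReal.continuous_rpow_const.comp (ENNReal.continuous_ofReal.comp (by fun_prop))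
      simpa using h2.tendsto 0
    simpa using ENNReal.Tendsto.mul_const h1 (Or.inr hfin.ne)
  have hlt : C < C + ε := ENNReal.lt_add_right hfin.ne hε.ne'
  have hev : ∀ᶠ δ in 𝓝[>] (0 : ℝ), ENNReal.ofReal (1 - 2 * δ) ^ (-s) * C < C + ε ∧
      δ ∈ Ioo (0 : ℝ) (1 / 4) :=
    ((hlim.eventually (gt_mem_nhds hlt)).filter_mono nhdsWithin_le_nhds).and
      (Ioo_mem_nhdsGT (by norm_num))
  obtain ⟨δ, hδC, hδ0, hδ1⟩ := hev.exists
  obtain ⟨T, hT, hTπ, hTδ⟩ := exists_map_eq_near μ π hπ.1 hδ0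
  refine ⟨fun x => (T x).2.1, fun x => (T x).2.2, hT.snd.fst, hT.snd.snd, ?_, ?_, ?_⟩
  · have := Measure.map_map (μ := μ) (measurable_snd.fst : Measurable fun p : E × E × E => p.2.1) hT
    rw [hTπ, hπ.2.1] at this
    exact this.symm
  · have := Measure.map_map (μ := μ) (measurable_snd.snd : Measurable fun p : E × E × E => p.2.2) hT
    rw [hTπ, hπ.2.2] at this
    exact this.symm
  refine lt_of_le_of_lt ?_ hδC
  set L := ENNReal.ofReal (1 - 2 * δ) ^ (-s) with hL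
  have hL1 : 1 ≤ L := by
    have : (1 : ℝ≥0∞) ^ (-s) ≤ L :=
      enn_rpow_neg_anti hs (ENNReal.ofReal_le_one.2 (by linarith))
    simpa using this
  have hsep' : ∀ᵐ x ∂μ, 1 / 2 ≤ ‖(T x).1 - (T x).2.1‖ ∧ 1 / 2 ≤ ‖(T x).1 - (T x).2.2‖ := by
    rw [← hTπ] at hsep
    exact ae_of_ae_map hT.aemeasurable hsep
  calc ∫⁻ x, tripleCost s (x, (T x).2.1, (T x).2.2) ∂μ
      ≤ ∫⁻ x, L * tripleCost s (T x) ∂μ := by
        refine lintegral_mono_ae ?_
        filter_upwards [hTδ, hsep'] with x hx hx'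
        unfold tripleCost
        rw [mul_add, mul_add]
        gcongr
        · exact pairCost_le_of_near hs hδ0.le hδ1.le hx hx'.1
        · exact pairCost_le_of_near hs hδ0.le hδ1.le hx hx'.2
        · exact le_mul_of_one_le_left (zero_le) hL1
    _ = L * C := by
        have hm : Measurable fun x => tripleCost s (T x) := (measurable_tripleCost s).comp hT
        rw [lintegral_const_mul _ hm, hC, ← hTπ,
          lintegral_map (measurable_tripleCost s) hT]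

/-- Integral of a potential over the three coordinates of a coupling. -/
theorem lintegral_potential {μ : Measure E} {π : Measure (E × E × E)} (hπ : IsCoupling₃ μ π)
    {U : E → ℝ≥0∞} (hU : Measurable U) :
    ∫⁻ p, (U p.1 + U p.2.1 + U p.2.2) ∂π = 3 * ∫⁻ x, U x ∂μ := by
  have h1 : ∫⁻ p, U p.1 ∂π = ∫⁻ x, U x ∂μ := by
    rw [← hπ.1, lintegral_map hU measurable_fst]
  have h2 : ∫⁻ p, U p.2.1 ∂π = ∫⁻ x, U x ∂μ := by
    rw [← hπ.2.1, lintegral_map hU measurable_snd.fst]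
  have h3 : ∫⁻ p, U p.2.2 ∂π = ∫⁻ x, U x ∂μ := by
    rw [← hπ.2.2, lintegral_map hU measurable_snd.snd]
  have m1 : Measurable fun p : E × E × E => U p.1 := hU.comp measurable_fst
  have m2 : Measurable fun p : E × E × E => U p.1 + U p.2.1 :=
    m1.add (hU.comp measurable_snd.fst)
  rw [lintegral_add_left m2, lintegral_add_left m1, h1, h2, h3]
  ring

theorem coupling_ae_mem {μ : Measure E} {π : Measure (E × E × E)} (hπ : IsCoupling₃ μ π)
    {K : Set E} (hK : ∀ᵐ x ∂μ, x ∈ K) : ∀ᵐ p ∂π, p.1 ∈ K ∧ p.2.1 ∈ K ∧ p.2.2 ∈ K := by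
  have h1 : ∀ᵐ p ∂π, p.1 ∈ K := by
    rw [← hπ.1] at hK; exact ae_of_ae_map measurable_fst.aemeasurable hK
  have h2 : ∀ᵐ p ∂π, p.2.1 ∈ K := by
    rw [← hπ.2.1] at hK; exact ae_of_ae_map measurable_snd.fst.aemeasurable hK
  have h3 : ∀ᵐ p ∂π, p.2.2 ∈ K := by
    rw [← hπ.2.2] at hK; exact ae_of_ae_map measurable_snd.snd.aemeasurable hK
  filter_upwards [h1, h2, h3] with p a b c using ⟨a, b, c⟩

theorem coupling_univ {μ : Measure E} {π : Measure (E × E × E)} (hπ : IsCoupling₃ μ π) :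
    π univ = μ univ := by
  rw [← hπ.1, Measure.map_apply measurable_fst MeasurableSet.univ, preimage_univ]

/-- Weak duality with a bounded potential `U` (shifted by the constant `M`). -/
theorem duality {s : ℝ} {μ : Measure E} [IsProbabilityMeasure μ] {U : E → ℝ≥0∞}
    (hU : Measurable U) (hUfin : ∫⁻ x, U x ∂μ ≠ ⊤) {M : ℝ≥0∞} (hM : M ≠ ⊤) {K : Set E}
    (hK : ∀ᵐ x ∂μ, x ∈ K)
    (hle : ∀ p : E × E × E, p.1 ∈ K → p.2.1 ∈ K → p.2.2 ∈ K →
      U p.1 + U p.2.1 + U p.2.2 ≤ tripleCost s p + M)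
    {π₀ : Measure (E × E × E)} (hπ₀ : IsCoupling₃ μ π₀)
    (heq : ∀ᵐ p ∂π₀, tripleCost s p + M = U p.1 + U p.2.1 + U p.2.2) :
    ∫⁻ p, tripleCost s p ∂π₀ < ⊤ ∧
    (∀ π, IsCoupling₃ μ π → ∫⁻ p, tripleCost s p ∂π₀ ≤ ∫⁻ p, tripleCost s p ∂π) ∧
    (∀ π, IsCoupling₃ μ π → ∫⁻ p, tripleCost s p ∂π ≤ ∫⁻ p, tripleCost s p ∂π₀ →
      ∀ᵐ p ∂π, tripleCost s p + M ≤ U p.1 + U p.2.1 + U p.2.2) := by
  have hadd : ∀ π, IsCoupling₃ μ π →
      ∫⁻ p, (tripleCost s p + M) ∂π = ∫⁻ p, tripleCost s p ∂π + M := by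
    intro π hπ
    rw [lintegral_add_right _ measurable_const, lintegral_const, coupling_univ hπ, measure_univ,
      mul_one]
  have h0 : ∫⁻ p, tripleCost s p ∂π₀ + M = 3 * ∫⁻ x, U x ∂μ := by
    rw [← hadd π₀ hπ₀, lintegral_congr_ae heq, lintegral_potential hπ₀ hU]
  have h3 : 3 * ∫⁻ x, U x ∂μ ≠ ⊤ := ENNReal.mul_ne_top (by simp) hUfin
  have hae : ∀ π, IsCoupling₃ μ π →
      ∀ᵐ p ∂π, U p.1 + U p.2.1 + U p.2.2 ≤ tripleCost s p + M := by
    intro π hπ
    filter_upwards [coupling_ae_mem hπ hK] with p hp using hle p hp.1 hp.2.1 hp.2.2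
  have hge : ∀ π, IsCoupling₃ μ π →
      3 * ∫⁻ x, U x ∂μ ≤ ∫⁻ p, tripleCost s p ∂π + M := by
    intro π hπ
    rw [← hadd π hπ, ← lintegral_potential hπ hU]
    exact lintegral_mono_ae (hae π hπ)
  refine ⟨?_, fun π hπ => ?_, fun π hπ hc => ?_⟩
  · exact lt_of_le_of_lt le_self_add (h0 ▸ h3.lt_top)
  · have := hge π hπ
    rw [← h0] at this
    exact (ENNReal.add_le_add_iff_right hM).1 this
  · have h4 : ∫⁻ p, (tripleCost s p + M) ∂π ≤ ∫⁻ p, (U p.1 + U p.2.1 + U p.2.2) ∂π := by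
      rw [hadd π hπ, lintegral_potential hπ hU, ← h0]
      gcongr
    have h5 : ∫⁻ p, (U p.1 + U p.2.1 + U p.2.2) ∂π ≠ ⊤ := by
      rw [lintegral_potential hπ hU]; exact h3
    have := ae_eq_of_ae_le_of_lintegral_le (hae π hπ) h5
      ((measurable_tripleCost s).add measurable_const).aemeasurable h4
    filter_upwards [this] with p hp using hp.ge

end Crest.Agent.R130
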