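import Mathlib

/-!
The local analysis near the collinear triple `(0, -e, e)`: with quadratic potentials at the first
and third points, the critical points form a graph over each coordinate, and they are strict
minima.
-/

set_option autoImplicit false
set_option linter.unusedSectionVars false

open Set Filter Topology Metric
open scoped ContDiff RealInnerProductSpace

namespace Crest.Agent.R130

variable {E : Type*} [NormedAddCommGroup E] [InnerProductSpace ℝ E]

theorem hasFDerivAt_norm_rpow_ne {x : E} (hx : x ≠ 0) (p : ℝ) :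
    HasFDerivAt (fun x : E => ‖x‖ ^ p) ((p * ‖x‖ ^ (p - 2)) • innerSL ℝ x) x := by
  have hx' : 0 < ‖x‖ := norm_pos_iff.2 hx
  have h1 : HasFDerivAt (fun x : E => (‖x‖ ^ 2) ^ (p / 2))
      (((p / 2) * (‖x‖ ^ 2) ^ (p / 2 - 1)) • (2 • innerSL ℝ x)) x :=
    (hasStrictFDerivAt_norm_sq x).hasFDerivAt.rpow_const (Or.inl (by positivity))
  have h2 : ∀ (y : E) (t : ℝ), (‖y‖ ^ 2) ^ t = ‖y‖ ^ (2 * t) := fun y t => by
    rw [← Real.rpow_two, ← Real.rpow_mul (norm_nonneg _)]
  convert h1 using 1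
  · funext y; rw [h2]; congr 1; ring
  · rw [h2, show 2 * (p / 2 - 1) = p - 2 by ring, two_smul, ← two_smul ℝ, smul_smul]
    congr 1; ring

/-- The force field `v / ‖v‖ ^ (s + 2)`. -/
noncomputable def kk (s : ℝ) (v : E) : E := ‖v‖ ^ (-s - 2) • v

/-- The derivative of `kk` at a unit vector. -/
noncomputable def Mop (s : ℝ) (e : E) : E →L[ℝ] E :=
  ContinuousLinearMap.id ℝ E - (s + 2) • (innerSL ℝ e).smulRight e

theorem Mop_apply (s : ℝ) (e w : E) : Mop s e w = w - ((s + 2) * ⟪e, w⟫) • e := by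
  simp [Mop, smul_smul]

theorem contDiffAt_kk (s : ℝ) {v : E} (hv : v ≠ 0) {n : WithTop ℕ∞} : ContDiffAt ℝ n (kk s) v :=
  ((contDiffAt_norm ℝ hv).rpow_const_of_ne (norm_ne_zero_iff.2 hv)).smul contDiffAt_id

theorem kk_smul (s : ℝ) {e : E} (he : ‖e‖ = 1) (c : ℝ) :
    kk s (c • e) = (|c| ^ (-s - 2) * c) • e := by
  simp [kk, norm_smul, he, smul_smul]

theorem hasFDerivAt_kk (s : ℝ) {e : E} (he : ‖e‖ = 1) {c : ℝ} (hc : c ≠ 0) :
    HasFDerivAt (kk s) (|c| ^ (-s - 2) • Mop s e) (c • e) := by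
  have hne : c • e ≠ 0 := smul_ne_zero hc (by rintro rfl; simp at he)
  have h1 := (hasFDerivAt_norm_rpow_ne hne (-s - 2)).smul (hasFDerivAt_id (c • e))
  refine HasFDerivAt.congr_fderiv (f := kk s) h1 ?_
  symm
  ext w
  have hn : ‖c • e‖ = |c| := by simp [norm_smul, he]
  have hc' : 0 < |c| := abs_pos.2 hc
  have h2 : |c| ^ (-s - 2 - 2) * (c * c) = |c| ^ (-s - 2) := by
    rw [← abs_mul_abs_self c, ← sq, ← Real.rpow_two, ← Real.rpow_add hc']; congr 1; ring
  simp only [smul_apply, Mop_apply, hn, id, add_apply,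
    ContinuousLinearMap.id_apply, ContinuousLinearMap.smulRight_apply, innerSL_apply_apply,
    inner_smul_left, smul_smul, smul_sub, smul_eq_mul, sub_eq_add_neg, ← neg_smul,
    RCLike.conj_to_real]
  rw [smul_add, smul_smul]
  congr 2
  rw [← sub_eq_add_neg, ← sub_eq_add_neg, ← h2]
  ring

theorem hasDerivAt_hh (s : ℝ) {v a : E} {t : ℝ} (h : v + t • a ≠ 0) :
    HasDerivAt (fun t : ℝ => ‖v + t • a‖ ^ (-s)) (-s * ⟪kk s (v + t • a), a⟫) t := by
  have h1 : HasDerivAt (fun t : ℝ => v + t • a) a t := by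
    simpa using ((hasDerivAt_id t).smul_const a).const_add v
  have h2 := (hasFDerivAt_norm_rpow_ne h (-s)).comp_hasDerivAt t h1
  refine HasDerivAt.congr_deriv (f := fun t : ℝ => ‖v + t • a‖ ^ (-s)) h2 ?_
  simp only [kk, inner_smul_left, smul_apply, innerSL_apply_apply, smul_eq_mul,
    RCLike.conj_to_real]
  ring

/-- The constant `2 ^ (-s - 2)`. -/
noncomputable def qq (s : ℝ) : ℝ := 2 ^ (-s - 2)

theorem qq_pos (s : ℝ) : 0 < qq s := Real.rpow_pos_of_pos two_pos _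

theorem qq_lt {s : ℝ} (hs : 0 < s) : qq s < 1 / 4 := by
  have : (2 : ℝ) ^ (-s - 2) < 2 ^ (-2 : ℝ) :=
    Real.rpow_lt_rpow_of_exponent_lt one_lt_two (by linarith)
  rw [qq]
  refine this.trans_eq ?_
  rw [Real.rpow_neg two_pos.le, Real.rpow_two]; norm_num

/-- The cost minus the quadratic potentials of the first and third points. -/
noncomputable def GG (s : ℝ) (e x y z : E) : ℝ :=
  ‖x - y‖ ^ (-s) + ‖x - z‖ ^ (-s) + ‖y - z‖ ^ (-s) + 2 * s * ‖x‖ ^ 2 +
    (s * ‖z - e‖ ^ 2 + s * (1 + 2 * qq s) * ⟪e, z - e⟫)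

/-- The gradient of `GG` in the first and third variables, divided by `s`. -/
noncomputable def Psi (s : ℝ) (e : E) (p : E × E × E) : E × E :=
  ((4 : ℝ) • p.1 - kk s (p.1 - p.2.1) - kk s (p.1 - p.2.2),
    (2 : ℝ) • (p.2.2 - e) + (1 + 2 * qq s) • e + kk s (p.1 - p.2.2) + kk s (p.2.1 - p.2.2))

theorem hasDerivAt_GG (s : ℝ) (e x y z a c : E) (t : ℝ) (h1 : x + t • a - y ≠ 0)
    (h2 : x + t • a - (z + t • c) ≠ 0) (h3 : y - (z + t • c) ≠ 0) :
    HasDerivAt (fun t : ℝ => GG s e (x + t • a) y (z + t • c))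
      (s * (⟪(Psi s e (x + t • a, y, z + t • c)).1, a⟫ +
        ⟪(Psi s e (x + t • a, y, z + t • c)).2, c⟫)) t := by
  have e1 : ∀ t : ℝ, x + t • a - y = (x - y) + t • a := fun t => by abel
  have e2 : ∀ t : ℝ, x + t • a - (z + t • c) = (x - z) + t • (a - c) := fun t => by
    rw [smul_sub]; abel
  have e3 : ∀ t : ℝ, y - (z + t • c) = (y - z) + t • (-c) := fun t => by
    rw [smul_neg]; abel
  have d1 := hasDerivAt_hh s (e1 t ▸ h1)
  have d2 := hasDerivAt_hh s (e2 t ▸ h2)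
  have d3 := hasDerivAt_hh s (e3 t ▸ h3)
  have l1 : HasDerivAt (fun t : ℝ => x + t • a) a t := by
    simpa using ((hasDerivAt_id t).smul_const a).const_add x
  have l2 : HasDerivAt (fun t : ℝ => z + t • c - e) c t := by
    simpa using (((hasDerivAt_id t).smul_const c).const_add z).sub_const e
  have d4 := l1.norm_sq.const_mul (2 * s)
  have d5 := l2.norm_sq.const_mul s
  have d6 : HasDerivAt (fun t : ℝ => s * (1 + 2 * qq s) * ⟪e, z + t • c - e⟫)
      (s * (1 + 2 * qq s) * ⟪e, c⟫) t := by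
    have := ((innerSL ℝ e).hasFDerivAt.comp_hasDerivAt t l2).const_mul (s * (1 + 2 * qq s))
    simpa using this
  have := (((d1.add d2).add d3).add d4).add (d5.add d6)
  refine (this.congr_deriv ?_).congr_of_eventuallyEq (Eventually.of_forall fun t => ?_)
  · simp only [Psi, ← e1, ← e2, ← e3, inner_add_left, inner_sub_left, inner_smul_left,
      inner_sub_right, inner_neg_right, RCLike.conj_to_real]
    ring
  · simp only [GG, e1, e2, e3, Pi.add_apply]

theorem Psi_center (s : ℝ) {e : E} (he : ‖e‖ = 1) : Psi s e (0, -e, e) = 0 := by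
  have k1 : kk s e = e := by simpa using kk_smul s he 1
  have k2 : kk s (-e) = -e := by simpa using kk_smul s he (-1)
  have k3 : kk s (-e - e) = -(2 * qq s) • e := by
    have := kk_smul s he (-2)
    rw [show (-2 : ℝ) • e = -e - e by module] at this
    rw [this, qq]; congr 1; simp; ring
  simp only [Psi, smul_zero, zero_sub, neg_neg, k1, k2, k3, sub_self, Prod.mk_eq_zero]
  constructor
  · simp
  · module

theorem contDiffAt_Psi (s : ℝ) {e : E} (he : ‖e‖ = 1) {n : WithTop ℕ∞} :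
    ContDiffAt ℝ n (Psi s e) (0, -e, e) := by
  have he0 : e ≠ 0 := by rintro rfl; simp at he
  have k1 : ContDiffAt ℝ n (fun p : E × E × E => kk s (p.1 - p.2.1)) (0, -e, e) :=
    (contDiffAt_kk s (by simpa using he0)).comp _ (by fun_prop)
  have k2 : ContDiffAt ℝ n (fun p : E × E × E => kk s (p.1 - p.2.2)) (0, -e, e) :=
    (contDiffAt_kk s (by simpa using he0)).comp _ (by fun_prop)
  have k3 : ContDiffAt ℝ n (fun p : E × E × E => kk s (p.2.1 - p.2.2)) (0, -e, e) := by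
    refine (contDiffAt_kk s ?_).comp _ (by fun_prop)
    have : -e - e = (-2 : ℝ) • e := by module
    simp only [this]
    exact smul_ne_zero (by norm_num) he0
  unfold Psi
  refine ContDiffAt.prodMk ?_ ?_
  · exact (ContDiffAt.sub (by fun_prop) k1).sub k2
  · exact (ContDiffAt.add (by fun_prop) k2).add k3

theorem fderiv_Psi (s : ℝ) {e : E} (he : ‖e‖ = 1) (a b c : E) :
    fderiv ℝ (Psi s e) (0, -e, e) (a, b, c) =
      ((4 : ℝ) • a - Mop s e (a - b) - Mop s e (a - c),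
        (2 : ℝ) • c + Mop s e (a - c) + qq s • Mop s e (b - c)) := by
  let P1 := ContinuousLinearMap.fst ℝ E (E × E)
  let P2 := (ContinuousLinearMap.fst ℝ E E).comp (ContinuousLinearMap.snd ℝ E (E × E))
  let P3 := (ContinuousLinearMap.snd ℝ E E).comp (ContinuousLinearMap.snd ℝ E (E × E))
  have p1 : HasFDerivAt (fun p : E × E × E => p.1) P1 (0, -e, e) := P1.hasFDerivAt
  have p2 : HasFDerivAt (fun p : E × E × E => p.2.1) P2 (0, -e, e) := P2.hasFDerivAt
  have p3 : HasFDerivAt (fun p : E × E × E => p.2.2) P3 (0, -e, e) := P3.hasFDerivAt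
  have k1 : HasFDerivAt (fun p : E × E × E => kk s (p.1 - p.2.1)) ((Mop s e).comp (P1 - P2))
      (0, -e, e) := by
    have := hasFDerivAt_kk s he one_ne_zero
    simp only [abs_one, Real.one_rpow, one_smul] at this
    exact HasFDerivAt.comp (g := kk s) _ (by simpa using this) (p1.sub p2)
  have k2 : HasFDerivAt (fun p : E × E × E => kk s (p.1 - p.2.2)) ((Mop s e).comp (P1 - P3))
      (0, -e, e) := by
    have := hasFDerivAt_kk s he (neg_ne_zero.2 one_ne_zero)
    simp only [abs_neg, abs_one, Real.one_rpow, one_smul, neg_smul] at this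
    exact HasFDerivAt.comp (g := kk s) _ (by simpa using this) (p1.sub p3)
  have k3 : HasFDerivAt (fun p : E × E × E => kk s (p.2.1 - p.2.2))
      ((qq s • Mop s e).comp (P2 - P3)) (0, -e, e) := by
    have := hasFDerivAt_kk s he (neg_ne_zero.2 two_ne_zero)
    rw [show (-2 : ℝ) • e = -e - e by module, abs_neg, abs_two] at this
    exact HasFDerivAt.comp (g := kk s) _ this (p2.sub p3)
  have h := (((p1.const_smul (4 : ℝ)).sub k1).sub k2).prodMk
    (((((p3.sub_const e).const_smul (2 : ℝ)).add_const ((1 + 2 * qq s) • e)).add k2).add k3)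
  have h' : HasFDerivAt (Psi s e) _ (0, -e, e) := h
  rw [h'.fderiv]
  simp [P1, P2, P3, smul_sub]

theorem inner_Mop_le {s : ℝ} (hs : 0 < s) (e w : E) : ⟪Mop s e w, w⟫ ≤ ‖w‖ ^ 2 := by
  rw [Mop_apply, inner_sub_left, inner_smul_left, real_inner_self_eq_norm_sq]
  simp only [RCLike.conj_to_real]
  nlinarith [mul_self_nonneg ⟪e, w⟫]

theorem inner_Mop {s : ℝ} {e : E} (he : ‖e‖ = 1) (w : E) :
    ⟪e, Mop s e w⟫ = -(s + 1) * ⟪e, w⟫ := by
  rw [Mop_apply, inner_sub_right, inner_smul_right, real_inner_self_eq_norm_sq, he]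
  ring

theorem Mop_eq_zero {s : ℝ} (hs : 0 < s) {e : E} (he : ‖e‖ = 1) {w : E} (h : Mop s e w = 0) :
    w = 0 := by
  have h1 := inner_Mop (s := s) he w
  rw [h, inner_zero_right] at h1
  have h2 : ⟪e, w⟫ = 0 := by
    rcases mul_eq_zero.1 h1.symm with h | h
    · linarith
    · exact h
  simpa [Mop_apply, h2] using h

theorem coercive {s : ℝ} (hs : 0 < s) {e : E} (he : ‖e‖ = 1) (a c : E) :
    (‖a‖ ^ 2 + ‖c‖ ^ 2) / 12 ≤ ⟪(fderiv ℝ (Psi s e) (0, -e, e) (a, 0, c)).1, a⟫ +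
      ⟪(fderiv ℝ (Psi s e) (0, -e, e) (a, 0, c)).2, c⟫ := by
  rw [fderiv_Psi s he]
  have h1 := inner_Mop_le hs e a
  have h2 := inner_Mop_le hs e (a - c)
  have h3 := inner_Mop_le hs e c
  have h4 : ‖a - c‖ ^ 2 ≤ 5 / 2 * ‖a‖ ^ 2 + 5 / 3 * ‖c‖ ^ 2 := by
    have : ‖a - c‖ ≤ ‖a‖ + ‖c‖ := norm_sub_le _ _
    have h5 : ‖a - c‖ ^ 2 ≤ (‖a‖ + ‖c‖) ^ 2 := by gcongr
    nlinarith [sq_nonneg (3 * ‖a‖ - 2 * ‖c‖)]
  have hq := qq_pos s
  have hq' := qq_lt hs
  rw [inner_sub_right] at h2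
  simp only [sub_zero, zero_sub, map_neg, inner_add_left, inner_sub_left, inner_smul_left,
    inner_neg_left, real_inner_self_eq_norm_sq, RCLike.conj_to_real]
  nlinarith [mul_le_mul_of_nonneg_left h3 hq.le, sq_nonneg ‖c‖, sq_nonneg ‖a‖]

theorem inj_second {s : ℝ} (hs : 0 < s) {e : E} (he : ‖e‖ = 1) {a c : E}
    (h : fderiv ℝ (Psi s e) (0, -e, e) (a, 0, c) = 0) : a = 0 ∧ c = 0 := by
  have := coercive hs he a c
  rw [h] at this
  simp only [Prod.fst_zero, inner_zero_left, Prod.snd_zero, add_zero] at this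
  constructor
  · have : ‖a‖ ^ 2 ≤ 0 := by nlinarith [sq_nonneg ‖c‖]
    exact norm_eq_zero.1 (pow_eq_zero_iff two_ne_zero |>.1 (le_antisymm this (sq_nonneg _)))
  · have : ‖c‖ ^ 2 ≤ 0 := by nlinarith [sq_nonneg ‖a‖]
    exact norm_eq_zero.1 (pow_eq_zero_iff two_ne_zero |>.1 (le_antisymm this (sq_nonneg _)))

theorem inj_first {s : ℝ} (hs : 0 < s) {e : E} (he : ‖e‖ = 1) {b c : E}
    (h : fderiv ℝ (Psi s e) (0, -e, e) (0, b, c) = 0) : b = 0 ∧ c = 0 := by
  rw [fderiv_Psi s he, Prod.mk_eq_zero] at h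
  obtain ⟨h1, h2⟩ := h
  have hq := qq_pos s
  have hq' := qq_lt hs
  have h3 : b + c = 0 := by
    apply Mop_eq_zero hs he
    rw [map_add, ← h1]; simp
  have hb : b = -c := eq_neg_of_add_eq_zero_left h3
  have h4 : (2 : ℝ) • c = (1 + 2 * qq s) • Mop s e c := by
    rw [hb, zero_sub, map_sub, map_neg] at h2
    rw [← sub_eq_zero, ← h2]; module
  have h5 : 2 * ‖c‖ ^ 2 = (1 + 2 * qq s) * ⟪Mop s e c, c⟫ := by
    have := congrArg (fun v => ⟪v, c⟫) h4
    simpa [inner_smul_left, real_inner_self_eq_norm_sq] using this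
  have h6 := inner_Mop_le hs e c
  have h7 : ‖c‖ ^ 2 ≤ 0 := by nlinarith [sq_nonneg ‖c‖]
  have hc : c = 0 :=
    norm_eq_zero.1 (pow_eq_zero_iff two_ne_zero |>.1 (le_antisymm h7 (sq_nonneg _)))
  exact ⟨by rw [hb, hc, neg_zero], hc⟩

theorem inj_third {s : ℝ} (hs : 0 < s) {e : E} (he : ‖e‖ = 1) {a b : E}
    (h : fderiv ℝ (Psi s e) (0, -e, e) (a, b, 0) = 0) : a = 0 ∧ b = 0 := by
  rw [fderiv_Psi s he, Prod.mk_eq_zero] at h
  obtain ⟨h1, h2⟩ := h
  have hq := qq_pos s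
  have hq' := qq_lt hs
  have h3 : a + qq s • b = 0 := by
    apply Mop_eq_zero hs he
    rw [map_add, map_smul, ← h2]; simp
  have ha : a = -(qq s • b) := eq_neg_of_add_eq_zero_left h3
  have h4 : (4 * qq s) • b = (1 + 2 * qq s) • Mop s e b := by
    rw [ha, sub_zero, map_sub, map_neg, map_smul] at h1
    rw [← sub_eq_zero, ← neg_eq_zero, ← h1]; module
  have h5 : ⟪e, b⟫ = 0 := by
    have := congrArg (fun v => ⟪e, v⟫) h4
    simp only [inner_smul_right, inner_Mop he] at this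
    have h6 : (4 * qq s + (1 + 2 * qq s) * (s + 1)) * ⟪e, b⟫ = 0 := by linarith
    rcases mul_eq_zero.1 h6 with h | h
    · exfalso; nlinarith
    · exact h
  have h7 : (1 - 2 * qq s) • b = 0 := by
    rw [Mop_apply, h5, mul_zero, zero_smul, sub_zero] at h4
    rw [← sub_eq_zero, ← neg_eq_zero] at h4
    rw [← h4]; module
  have hb : b = 0 := (smul_eq_zero.1 h7).resolve_left (by linarith)
  exact ⟨by rw [ha, hb]; simp, hb⟩

end Crest.Agent.R130
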