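import Mathlib
import Crest.Agent.R130.Local

/-!
One family of triangles: the implicit function theorem and strict minimality.
-/

set_option autoImplicit false
set_option linter.unusedSectionVars false

open Set Filter Topology Metric
open scoped ContDiff RealInnerProductSpace

namespace Crest.Agent.R130

variable {E : Type*} [NormedAddCommGroup E] [InnerProductSpace ℝ E] [FiniteDimensional ℝ E]

theorem exists_implicit {s : ℝ} (hs : 0 < s) {e : E} (he : ‖e‖ = 1) :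
    ∃ β γ : E → E, β 0 = -e ∧ γ 0 = e ∧ ContDiffAt ℝ ω β 0 ∧ ContDiffAt ℝ ω γ 0 ∧
      Function.Injective (fderiv ℝ β 0) ∧ Function.Injective (fderiv ℝ γ 0) ∧
      ∀ᶠ x in 𝓝 (0 : E), Psi s e (x, β x, γ x) = 0 := by
  let c₀ : E × E × E := (0, -e, e)
  let H : E × E × E → E × E × E := fun p => (p.1, Psi s e p)
  have hPsi : ContDiffAt ℝ ω (Psi s e) c₀ := contDiffAt_Psi s he
  have hH : ContDiffAt ℝ ω H c₀ := contDiffAt_fst.prodMk hPsi
  let D := fderiv ℝ (Psi s e) c₀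
  have hD : HasFDerivAt (Psi s e) D c₀ := (hPsi.differentiableAt (by simp)).hasFDerivAt
  let DH : (E × E × E) →L[ℝ] (E × E × E) := (ContinuousLinearMap.fst ℝ E (E × E)).prod D
  have hDH : HasFDerivAt H DH c₀ := hasFDerivAt_fst.prodMk hD
  have hinj : Function.Injective DH := by
    rw [injective_iff_map_eq_zero]
    rintro ⟨a, b, c⟩ h
    simp only [DH, ContinuousLinearMap.prod_apply, ContinuousLinearMap.coe_fst', Prod.mk_eq_zero]
      at h
    obtain ⟨rfl, h⟩ := h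
    obtain ⟨rfl, rfl⟩ := inj_first hs he h
    rfl
  let L : (E × E × E) ≃L[ℝ] (E × E × E) :=
    (LinearEquiv.ofInjectiveEndo (DH : (E × E × E) →ₗ[ℝ] (E × E × E)) hinj).toContinuousLinearEquiv
  have hLDH : (L : (E × E × E) →L[ℝ] (E × E × E)) = DH := by ext x <;> rfl
  have hL : HasFDerivAt H (L : (E × E × E) →L[ℝ] (E × E × E)) c₀ := hLDH ▸ hDH
  have hHc : H c₀ = (0, 0) := by simp only [H, c₀, Psi_center s he]
  let J := hH.localInverse hL (by simp)
  have hJ : ContDiffAt ℝ ω J (0, 0) := hHc ▸ hH.to_localInverse hL (by simp)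
  have hJ0 : J (0, 0) = c₀ := hHc ▸ hH.localInverse_apply_image hL (by simp)
  have hst := hH.hasStrictFDerivAt' hL (by simp)
  have hright : ∀ᶠ y in 𝓝 ((0, 0) : E × E × E), H (J y) = y :=
    hHc ▸ hst.eventually_right_inverse
  have hJd : HasFDerivAt J (L.symm : (E × E × E) →L[ℝ] (E × E × E)) (0, 0) :=
    hHc ▸ hst.to_localInverse.hasFDerivAt
  let Θ : E → E × E × E := fun x => J (x, 0)
  have hι : ContDiff ℝ ω fun x : E => ((x, 0) : E × E × E) := by fun_prop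
  have hΘ : ContDiffAt ℝ ω Θ 0 := ContDiffAt.comp (g := J) 0 hJ hι.contDiffAt
  have hΘd : HasFDerivAt Θ ((L.symm : (E × E × E) →L[ℝ] (E × E × E)).comp
      (ContinuousLinearMap.inl ℝ E (E × E))) 0 :=
    HasFDerivAt.comp (g := J) 0 hJd (ContinuousLinearMap.inl ℝ E (E × E)).hasFDerivAt
  have hev : ∀ᶠ x in 𝓝 (0 : E), H (Θ x) = (x, 0) :=
    (hι.continuous.tendsto 0).eventually hright
  have hkey : ∀ a : E, (L.symm (a, 0)).1 = a ∧ D (L.symm (a, 0)) = 0 := by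
    intro a
    have h1 : DH (L.symm (a, 0)) = (a, 0) := by
      rw [← hLDH]; exact L.apply_symm_apply _
    simpa [DH] using h1
  refine ⟨fun x => (Θ x).2.1, fun x => (Θ x).2.2, ?_, ?_, hΘ.snd.fst, hΘ.snd.snd, ?_, ?_, ?_⟩
  · simp only [Θ, hJ0, c₀]
  · simp only [Θ, hJ0, c₀]
  · rw [hΘd.snd.fst.fderiv, injective_iff_map_eq_zero]
    intro a ha
    obtain ⟨h1, h2⟩ := hkey a
    have ha' : (L.symm (a, 0)).2.1 = 0 := ha
    have : L.symm (a, 0) = (a, 0, (L.symm (a, 0)).2.2) := Prod.ext h1 (Prod.ext ha' rfl)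
    rw [this] at h2
    exact (inj_second hs he h2).1
  · rw [hΘd.snd.snd.fderiv, injective_iff_map_eq_zero]
    intro a ha
    obtain ⟨h1, h2⟩ := hkey a
    have ha' : (L.symm (a, 0)).2.2 = 0 := ha
    have : L.symm (a, 0) = (a, (L.symm (a, 0)).2.1, 0) := Prod.ext h1 (Prod.ext rfl ha')
    rw [this] at h2
    exact (inj_third hs he h2).1
  · filter_upwards [hev] with x hx
    simp only [H, Prod.mk.injEq] at hx
    have : Θ x = (x, (Θ x).2.1, (Θ x).2.2) := Prod.ext hx.1 rfl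
    rw [← this]
    exact hx.2

theorem ne_of_near {e u v : E} (he : ‖e‖ = 1) {a b : ℝ} (hab : 1 ≤ |a - b|)
    (hu : u ∈ ball (a • e) (1 / 4)) (hv : v ∈ ball (b • e) (1 / 4)) : u - v ≠ 0 := by
  intro h
  rw [sub_eq_zero] at h
  subst h
  have h1 : dist (a • e) (b • e) < 1 / 4 + 1 / 4 :=
    (dist_triangle_left _ _ u).trans_lt (add_lt_add hu hv)
  rw [dist_eq_norm, ← sub_smul, norm_smul, he, mul_one, Real.norm_eq_abs] at h1
  linarith

theorem exists_strict_min {s : ℝ} (hs : 0 < s) {e : E} (he : ‖e‖ = 1) :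
    ∃ r₀ > 0, ∀ x₁ ∈ ball (0 : E) r₀, ∀ y ∈ ball (-e) r₀, ∀ z₁ ∈ ball e r₀,
      Psi s e (x₁, y, z₁) = 0 → ∀ x ∈ ball (0 : E) r₀, ∀ z ∈ ball e r₀, (x, z) ≠ (x₁, z₁) →
        GG s e x₁ y z₁ < GG s e x y z := by
  let c₀ : E × E × E := (0, -e, e)
  have hPsi : ContDiffAt ℝ 1 (Psi s e) c₀ := contDiffAt_Psi s he
  have hst := hPsi.hasStrictFDerivAt one_ne_zero
  set D := fderiv ℝ (Psi s e) c₀ with hD
  have h1 := hst.isLittleO.def (c := 1 / 48) (by norm_num)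
  obtain ⟨ε, hε, hball⟩ := Metric.eventually_nhds_iff_ball.1 h1
  refine ⟨min ε (1 / 4), lt_min hε (by norm_num), ?_⟩
  intro x₁ hx₁ y hy z₁ hz₁ h0 x hx z hz hne
  set a := x - x₁ with ha
  set c := z - z₁ with hc
  have hxt : ∀ t ∈ Icc (0 : ℝ) 1, x₁ + t • a ∈ ball (0 : E) (min ε (1 / 4)) := fun t ht =>
    (convex_ball _ _).add_smul_sub_mem hx₁ hx ht
  have hzt : ∀ t ∈ Icc (0 : ℝ) 1, z₁ + t • c ∈ ball e (min ε (1 / 4)) := fun t ht =>
    (convex_ball _ _).add_smul_sub_mem hz₁ hz ht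
  have hsub : ∀ u : E, ball u (min ε (1 / 4)) ⊆ ball u (1 / 4) := fun u =>
    ball_subset_ball (min_le_right _ _)
  have hsub' : ∀ u : E, ball u (min ε (1 / 4)) ⊆ ball u ε := fun u =>
    ball_subset_ball (min_le_left _ _)
  have hder : ∀ t ∈ Icc (0 : ℝ) 1, HasDerivAt (fun t : ℝ => GG s e (x₁ + t • a) y (z₁ + t • c))
      (s * (⟪(Psi s e (x₁ + t • a, y, z₁ + t • c)).1, a⟫ +
        ⟪(Psi s e (x₁ + t • a, y, z₁ + t • c)).2, c⟫)) t := by
    intro t ht
    refine hasDerivAt_GG s e x₁ y z₁ a c t ?_ ?_ ?_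
    · exact ne_of_near he (a := 0) (b := -1) (by norm_num) (by simpa using hsub _ (hxt t ht))
        (by simpa using hsub _ hy)
    · exact ne_of_near he (a := 0) (b := 1) (by norm_num) (by simpa using hsub _ (hxt t ht))
        (by simpa using hsub _ (hzt t ht))
    · exact ne_of_near he (a := -1) (b := 1) (by norm_num) (by simpa using hsub _ hy)
        (by simpa using hsub _ (hzt t ht))
  have hpos : 0 < ‖a‖ ^ 2 + ‖c‖ ^ 2 := by
    by_contra hn
    have h2 : ‖a‖ ^ 2 ≤ 0 := by nlinarith [sq_nonneg ‖c‖]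
    have h3 : ‖c‖ ^ 2 ≤ 0 := by nlinarith [sq_nonneg ‖a‖]
    have h4 : a = 0 :=
      norm_eq_zero.1 (pow_eq_zero_iff two_ne_zero |>.1 (le_antisymm h2 (sq_nonneg _)))
    have h5 : c = 0 :=
      norm_eq_zero.1 (pow_eq_zero_iff two_ne_zero |>.1 (le_antisymm h3 (sq_nonneg _)))
    exact hne (Prod.ext (sub_eq_zero.1 h4) (sub_eq_zero.1 h5))
  have hdpos : ∀ t ∈ Ioo (0 : ℝ) 1, 0 < s * (⟪(Psi s e (x₁ + t • a, y, z₁ + t • c)).1, a⟫ +
        ⟪(Psi s e (x₁ + t • a, y, z₁ + t • c)).2, c⟫) := by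
    intro t ht
    refine mul_pos hs ?_
    have ht' : t ∈ Icc (0 : ℝ) 1 := Ioo_subset_Icc_self ht
    have hmem : ((x₁ + t • a, y, z₁ + t • c), (x₁, y, z₁)) ∈ ball (c₀, c₀) ε := by
      rw [← ball_prod_same, ← ball_prod_same, ← ball_prod_same]
      exact ⟨⟨hsub' _ (hxt t ht'), hsub' _ hy, hsub' _ (hzt t ht')⟩,
        ⟨hsub' _ hx₁, hsub' _ hy, hsub' _ hz₁⟩⟩
    have h2 := hball _ hmem
    have h3 : ((x₁ + t • a, y, z₁ + t • c) : E × E × E) - (x₁, y, z₁) = t • (a, 0, c) := by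
      simp
    simp only [h0, sub_zero, h3, map_smul] at h2
    set R := Psi s e (x₁ + t • a, y, z₁ + t • c) - t • D (a, 0, c) with hR
    have hΨ : Psi s e (x₁ + t • a, y, z₁ + t • c) = R + t • D (a, 0, c) := by simp [hR]
    have hco := coercive hs he a c
    rw [← hD] at hco
    have hn : ‖((a, 0, c) : E × E × E)‖ ≤ ‖a‖ + ‖c‖ := by
      simp only [Prod.norm_def, norm_zero]
      exact max_le (by linarith [norm_nonneg c])
        (max_le (by positivity) (by linarith [norm_nonneg a]))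
    have hRn : ‖R‖ ≤ 1 / 48 * (t * (‖a‖ + ‖c‖)) := by
      refine h2.trans ?_
      rw [norm_smul, Real.norm_eq_abs, abs_of_pos ht.1]
      gcongr
      exact ht.1.le
    have hR1 : -(‖R‖ * ‖a‖) ≤ ⟪R.1, a⟫ := by
      have := abs_real_inner_le_norm R.1 a
      have h5 : ‖R.1‖ * ‖a‖ ≤ ‖R‖ * ‖a‖ := by gcongr; exact norm_fst_le R
      linarith [neg_abs_le ⟪R.1, a⟫]
    have hR2 : -(‖R‖ * ‖c‖) ≤ ⟪R.2, c⟫ := by
      have := abs_real_inner_le_norm R.2 c
      have h5 : ‖R.2‖ * ‖c‖ ≤ ‖R‖ * ‖c‖ := by gcongr; exact norm_snd_le R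
      linarith [neg_abs_le ⟪R.2, c⟫]
    rw [hΨ]
    simp only [Prod.fst_add, Prod.snd_add, Prod.smul_fst, Prod.smul_snd, inner_add_left,
      inner_smul_left, RCLike.conj_to_real]
    have h6 : ‖R‖ * (‖a‖ + ‖c‖) ≤ 1 / 48 * (t * (‖a‖ + ‖c‖)) * (‖a‖ + ‖c‖) := by gcongr
    have h7 : (‖a‖ + ‖c‖) ^ 2 ≤ 2 * (‖a‖ ^ 2 + ‖c‖ ^ 2) := by nlinarith [sq_nonneg (‖a‖ - ‖c‖)]
    have h8 := mul_le_mul_of_nonneg_left hco ht.1.le
    have h9 := mul_le_mul_of_nonneg_left h7 ht.1.le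
    have h10 := mul_pos ht.1 hpos
    nlinarith
  obtain ⟨t, ht, hslope⟩ := exists_hasDerivAt_eq_slope
    (fun t : ℝ => GG s e (x₁ + t • a) y (z₁ + t • c)) _ zero_lt_one
    (fun t ht => (hder t ht).continuousAt.continuousWithinAt)
    (fun t ht => hder t (Ioo_subset_Icc_self ht))
  have := hdpos t ht
  rw [hslope] at this
  simp only [one_smul, zero_smul, add_zero, sub_zero, div_one, ha, hc, add_sub_cancel] at this
  linarith

end Crest.Agent.R130
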