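import Mathlib
import Crest.Prelude.Def_MultiMarginal

/-!
The bowtie: two families of triangles sharing their first vertex.  A plan concentrated on these
triangles cannot be given by maps.
-/

set_option autoImplicit false
set_option linter.unusedSectionVars false

open MeasureTheory Set Filter Topology
open scoped ENNReal
open Crest.AnalysisR.OT

namespace Crest.Agent.R130

variable {E : Type*} [MeasurableSpace E]

/-- The common marginal: the base measure and half of each of its four images. -/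
noncomputable def bowMeasure (ν : Measure E) (f : Bool → Bool → E → E) : Measure E :=
  ν + ∑ j : Bool, ∑ σ : Bool, (2⁻¹ : ℝ≥0∞) • ν.map (f j σ)

/-- The plan: both triangles over each base point, in the three cyclic orders. -/
noncomputable def bowPlan (ν : Measure E) (f : Bool → Bool → E → E) : Measure (E × E × E) :=
  ∑ j : Bool, (2⁻¹ : ℝ≥0∞) • (ν.map (fun x => (x, f j false x, f j true x)) +
    ν.map (fun x => (f j true x, x, f j false x)) + ν.map (fun x => (f j false x, f j true x, x)))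

/-- The set of ordered triangles. -/
def IsTri (A : Set E) (f : Bool → Bool → E → E) (p : E × E × E) : Prop :=
  ∃ x ∈ A, ∃ j σ, p = (x, f j σ x, f j (!σ) x) ∨ p = (f j σ x, x, f j (!σ) x) ∨
    p = (f j σ x, f j (!σ) x, x)

theorem half_add_half (ν : Measure E) : (2⁻¹ : ℝ≥0∞) • ν + (2⁻¹ : ℝ≥0∞) • ν = ν := by
  rw [← add_smul, ENNReal.inv_two_add_inv_two, one_smul]

theorem bowPlan_coupling (ν : Measure E) {f : Bool → Bool → E → E}
    (hf : ∀ j σ, Measurable (f j σ)) : IsCoupling₃ (bowMeasure ν f) (bowPlan ν f) := by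
  have m1 : ∀ j, Measurable fun x => (x, f j false x, f j true x) := fun j =>
    measurable_id.prodMk ((hf _ _).prodMk (hf _ _))
  have m2 : ∀ j, Measurable fun x => (f j true x, x, f j false x) := fun j =>
    (hf _ _).prodMk (measurable_id.prodMk (hf _ _))
  have m3 : ∀ j, Measurable fun x => (f j false x, f j true x, x) := fun j =>
    (hf _ _).prodMk ((hf _ _).prodMk measurable_id)
  have p1 : Measurable fun p : E × E × E => p.1 := measurable_fst
  have p2 : Measurable fun p : E × E × E => p.2.1 := measurable_snd.fst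
  have p3 : Measurable fun p : E × E × E => p.2.2 := measurable_snd.snd
  refine ⟨?_, ?_, ?_⟩
  · simp only [bowPlan, bowMeasure, Fintype.sum_bool, Measure.map_add _ _ p1, Measure.map_smul,
      Measure.map_map p1 (m1 _), Measure.map_map p1 (m2 _), Measure.map_map p1 (m3 _),
      Function.comp_def, Measure.map_id', smul_add]
    nth_rewrite 7 [← half_add_half ν]
    abel
  · simp only [bowPlan, bowMeasure, Fintype.sum_bool, Measure.map_add _ _ p2, Measure.map_smul,
      Measure.map_map p2 (m1 _), Measure.map_map p2 (m2 _), Measure.map_map p2 (m3 _),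
      Function.comp_def, Measure.map_id', smul_add]
    nth_rewrite 7 [← half_add_half ν]
    abel
  · simp only [bowPlan, bowMeasure, Fintype.sum_bool, Measure.map_add _ _ p3, Measure.map_smul,
      Measure.map_map p3 (m1 _), Measure.map_map p3 (m2 _), Measure.map_map p3 (m3 _),
      Function.comp_def, Measure.map_id', smul_add]
    nth_rewrite 7 [← half_add_half ν]
    abel

theorem bowPlan_ae (ν : Measure E) {f : Bool → Bool → E → E} (hf : ∀ j σ, Measurable (f j σ))
    {A : Set E} (hν : ∀ᵐ x ∂ν, x ∈ A) {P : E × E × E → Prop} (hP : MeasurableSet {p | P p})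
    (h : ∀ p, IsTri A f p → P p) : ∀ᵐ p ∂(bowPlan ν f), P p := by
  have m1 : ∀ j, Measurable fun x => (x, f j false x, f j true x) := fun j =>
    measurable_id.prodMk ((hf _ _).prodMk (hf _ _))
  have m2 : ∀ j, Measurable fun x => (f j true x, x, f j false x) := fun j =>
    (hf _ _).prodMk (measurable_id.prodMk (hf _ _))
  have m3 : ∀ j, Measurable fun x => (f j false x, f j true x, x) := fun j =>
    (hf _ _).prodMk ((hf _ _).prodMk measurable_id)
  have key : ∀ j, ∀ᵐ p ∂((2⁻¹ : ℝ≥0∞) • (ν.map (fun x => (x, f j false x, f j true x)) +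
      ν.map (fun x => (f j true x, x, f j false x)) +
      ν.map (fun x => (f j false x, f j true x, x)))), P p := by
    intro j
    refine Measure.ae_smul_measure ?_ _
    rw [ae_add_measure_iff, ae_add_measure_iff, ae_map_iff (m1 j).aemeasurable hP,
      ae_map_iff (m2 j).aemeasurable hP, ae_map_iff (m3 j).aemeasurable hP]
    refine ⟨⟨?_, ?_⟩, ?_⟩
    · filter_upwards [hν] with x hx using h _ ⟨x, hx, j, false, Or.inl rfl⟩
    · filter_upwards [hν] with x hx using h _ ⟨x, hx, j, true, Or.inr (Or.inl rfl)⟩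
    · filter_upwards [hν] with x hx using h _ ⟨x, hx, j, false, Or.inr (Or.inr rfl)⟩
  simp only [bowPlan, Fintype.sum_bool]
  rw [ae_add_measure_iff]
  exact ⟨key _, key _⟩

theorem bowMeasure_ae (ν : Measure E) {f : Bool → Bool → E → E} (hf : ∀ j σ, Measurable (f j σ))
    {A : Set E} (hν : ∀ᵐ x ∂ν, x ∈ A) {K : Set E} (hK : MeasurableSet K) (hA : A ⊆ K)
    (h : ∀ j σ, ∀ x ∈ A, f j σ x ∈ K) : ∀ᵐ x ∂(bowMeasure ν f), x ∈ K := by
  have key : ∀ j σ, ∀ᵐ x ∂((2⁻¹ : ℝ≥0∞) • ν.map (f j σ)), x ∈ K := by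
    intro j σ
    refine Measure.ae_smul_measure ?_ _
    rw [ae_map_iff (p := fun x => x ∈ K) (hf j σ).aemeasurable hK]
    filter_upwards [hν] with x hx using h j σ x hx
  simp only [bowMeasure, Fintype.sum_bool, ae_add_measure_iff]
  exact ⟨by filter_upwards [hν] with x hx using hA hx, ⟨key _ _, key _ _⟩, key _ _, key _ _⟩

theorem bowMeasure_univ (ν : Measure E) {f : Bool → Bool → E → E}
    (hf : ∀ j σ, Measurable (f j σ)) : bowMeasure ν f univ = 3 * ν univ := by
  simp only [bowMeasure, Fintype.sum_bool, Measure.add_apply, Measure.smul_apply,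
    Measure.map_apply (hf _ _) MeasurableSet.univ, preimage_univ, smul_eq_mul]
  rw [← add_mul, ENNReal.inv_two_add_inv_two]
  ring

variable [StandardBorelSpace E]

theorem bowMeasure_image (ν : Measure E) {f : Bool → Bool → E → E}
    (hf : ∀ j σ, Measurable (f j σ)) {A : Set E} (hν : ∀ᵐ x ∂ν, x ∈ A)
    (hinj : ∀ j σ j' σ', ∀ x ∈ A, ∀ x' ∈ A, f j σ x = f j' σ' x' → j = j' ∧ σ = σ' ∧ x = x')
    (hout : ∀ j σ, ∀ x ∈ A, f j σ x ∉ A) {S : Set E} (hS : MeasurableSet S) (hSA : S ⊆ A)
    (j σ : Bool) : MeasurableSet (f j σ '' S) ∧ bowMeasure ν f (f j σ '' S) = 2⁻¹ * ν S := by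
  have hm : MeasurableSet (f j σ '' S) :=
    hS.image_of_measurable_injOn (hf j σ)
      (fun x hx x' hx' h => (hinj j σ j σ x (hSA hx) x' (hSA hx') h).2.2)
  refine ⟨hm, ?_⟩
  have h0 : ν (f j σ '' S) = 0 := by
    refine measure_mono_null ?_ (ae_iff.1 hν)
    rintro _ ⟨x, hx, rfl⟩
    exact hout j σ x (hSA hx)
  have h1 : ν.map (f j σ) (f j σ '' S) = ν S := by
    rw [Measure.map_apply (hf j σ) hm]
    refine measure_congr ?_
    filter_upwards [hν] with x hx
    refine propext ⟨?_, fun h => mem_image_of_mem _ h⟩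
    rintro ⟨x', hx', h⟩
    have := (hinj j σ j σ x' (hSA hx') x hx h).2.2
    rw [← this]; exact hx'
  have h2 : ∀ j' σ', ¬ (j' = j ∧ σ' = σ) → ν.map (f j' σ') (f j σ '' S) = 0 := by
    intro j' σ' hne
    rw [Measure.map_apply (hf j' σ') hm]
    refine measure_mono_null ?_ (ae_iff.1 hν)
    rintro x ⟨x', hx', h⟩ hx
    have := hinj j σ j' σ' x' (hSA hx') x hx h
    exact hne ⟨this.1.symm, this.2.1.symm⟩
  simp only [bowMeasure, Fintype.sum_bool, Measure.add_apply, Measure.smul_apply, smul_eq_mul, h0]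
  cases j <;> cases σ
  · rw [h1, h2 true true (by simp), h2 true false (by simp), h2 false true (by simp)]; simp
  · rw [h1, h2 true true (by simp), h2 true false (by simp), h2 false false (by simp)]; simp
  · rw [h1, h2 true true (by simp), h2 false false (by simp), h2 false true (by simp)]; simp
  · rw [h1, h2 false false (by simp), h2 true false (by simp), h2 false true (by simp)]; simp

/-- No plan given by maps is concentrated on the triangles. -/
theorem no_monge (ν : Measure E) [IsFiniteMeasure ν] (hν0 : ν univ ≠ 0)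
    {f : Bool → Bool → E → E}
    (hf : ∀ j σ, Measurable (f j σ)) {A : Set E} (hA : MeasurableSet A) (hν : ∀ᵐ x ∂ν, x ∈ A)
    (hinj : ∀ j σ j' σ', ∀ x ∈ A, ∀ x' ∈ A, f j σ x = f j' σ' x' → j = j' ∧ σ = σ' ∧ x = x')
    (hout : ∀ j σ, ∀ x ∈ A, f j σ x ∉ A) {T₂ T₃ : E → E} (hT₂ : Measurable T₂)
    (hT₃ : Measurable T₃) (h₂ : (bowMeasure ν f).map T₂ = bowMeasure ν f)
    (h₃ : (bowMeasure ν f).map T₃ = bowMeasure ν f)
    (htri : ∀ᵐ x ∂(bowMeasure ν f), IsTri A f (x, T₂ x, T₃ x)) : False := by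
  set μ := bowMeasure ν f with hμ
  have hI := fun {S : Set E} (hS : MeasurableSet S) (hSA : S ⊆ A) =>
    bowMeasure_image ν hf hν hinj hout hS hSA
  let S : Bool → Set E := fun j => A ∩ T₂ ⁻¹' (f j false '' A ∪ f j true '' A)ᶜ
  have hSm : ∀ j, MeasurableSet (S j) := fun j =>
    hA.inter (hT₂ ((hI hA subset_rfl j false).1.union (hI hA subset_rfl j true).1).compl)
  have hSA : ∀ j, S j ⊆ A := fun j => inter_subset_left
  have hS0 : ∀ j, ν (S j) = 0 := by
    intro j
    obtain ⟨hBm, hB⟩ := hI (hSm j) (hSA j) j false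
    obtain ⟨hCm, hC⟩ := hI (hSm j) (hSA j) j true
    -- pointwise facts on triangles
    have hpt : ∀ x, IsTri A f (x, T₂ x, T₃ x) →
        ¬ (T₂ x ∈ f j false '' S j ∧ T₃ x ∈ f j false '' S j) ∧
        (T₂ x ∈ f j false '' S j ∨ T₃ x ∈ f j false '' S j → x ∈ f j true '' S j) := by
      rintro x ⟨x₀, hx₀, i, σ, h⟩
      have hne : ∀ τ, f i τ x₀ ∈ f j false '' S j → i = j ∧ τ = false ∧ x₀ ∈ S j := by
        rintro τ ⟨x₁, hx₁, h1⟩
        obtain ⟨a, b, c⟩ := hinj j false i τ x₁ (hSA j hx₁) x₀ hx₀ h1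
        exact ⟨a.symm, b.symm, c ▸ hx₁⟩
      have hne0 : x₀ ∉ f j false '' S j := by
        rintro ⟨x₁, hx₁, h1⟩
        exact hout j false x₁ (hSA j hx₁) (h1 ▸ hx₀)
      simp only [Prod.mk.injEq] at h
      rcases h with ⟨e1, e2, e3⟩ | ⟨e1, e2, e3⟩ | ⟨e1, e2, e3⟩
      · have hno : ∀ τ, f i τ x₀ ∉ f j false '' S j := by
          intro τ hτ
          obtain ⟨a, -, c⟩ := hne τ hτ
          apply c.2
          rw [← e1, e2, a]
          cases σ
          · exact Or.inl (mem_image_of_mem _ hx₀)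
          · exact Or.inr (mem_image_of_mem _ hx₀)
        rw [e2, e3]
        exact ⟨fun h => hno _ h.1, fun h => (h.elim (hno _) (hno _)).elim⟩
      · rw [e2, e3]
        refine ⟨fun h => hne0 h.1, fun h => ?_⟩
        obtain ⟨a, b, c⟩ := hne _ (h.resolve_left hne0)
        have : σ = true := by simpa using b
        rw [e1, a, this]
        exact mem_image_of_mem _ c
      · rw [e2, e3]
        refine ⟨fun h => hne0 h.2, fun h => ?_⟩
        obtain ⟨a, b, c⟩ := hne _ (h.resolve_right hne0)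
        have : σ = true := by simpa using b
        rw [e1, a, this]
        exact mem_image_of_mem _ c
    have hdisj : AEDisjoint μ (T₂ ⁻¹' (f j false '' S j)) (T₃ ⁻¹' (f j false '' S j)) := by
      refine measure_mono_null ?_ (ae_iff.1 htri)
      intro x hx htx
      exact (hpt x htx).1 hx
    have hsub : μ (T₂ ⁻¹' (f j false '' S j) ∪ T₃ ⁻¹' (f j false '' S j)) ≤
        μ (f j true '' S j) := by
      refine measure_mono_ae ?_
      filter_upwards [htri] with x hx h using (hpt x hx).2 h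
    rw [measure_union₀ (hT₃ hBm).nullMeasurableSet hdisj, ← Measure.map_apply hT₂ hBm,
      ← Measure.map_apply hT₃ hBm, h₂, h₃, hB, hC] at hsub
    have hfin : (2⁻¹ : ℝ≥0∞) * ν (S j) ≠ ⊤ := ENNReal.mul_ne_top (by simp) (measure_ne_top _ _)
    have h0 : (2⁻¹ : ℝ≥0∞) * ν (S j) = 0 := by
      have : (2⁻¹ : ℝ≥0∞) * ν (S j) + 2⁻¹ * ν (S j) ≤ 2⁻¹ * ν (S j) + 0 := by simpa using hsub
      exact le_zero_iff.1 ((ENNReal.add_le_add_iff_left hfin).1 this)
    simpa using h0
  have hcover : A ⊆ S false ∪ S true := by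
    intro x hx
    by_contra hn
    simp only [S, mem_union, mem_inter_iff, mem_preimage, mem_compl_iff, hx, true_and, not_or,
      not_not, not_and_or] at hn
    obtain ⟨h1, h2⟩ := hn
    rcases h1 with ⟨a, ha, h1⟩ | ⟨a, ha, h1⟩ <;> rcases h2 with ⟨b, hb, h2⟩ | ⟨b, hb, h2⟩ <;>
      simpa using (hinj _ _ _ _ a ha b hb (h1.trans h2.symm)).1
  have hA0 : ν A = 0 := measure_mono_null hcover (measure_union_null (hS0 _) (hS0 _))
  apply hν0
  have : ν univ ≤ ν A + ν Aᶜ := by
    rw [← union_compl_self A]; exact measure_union_le _ _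
  rw [hA0, zero_add] at this
  exact le_zero_iff.1 (this.trans (ae_iff.1 hν).le)

end Crest.Agent.R130
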