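import Mathlib

/-!
Local diffeomorphisms and the image of a smooth density under them.
-/

set_option autoImplicit false
set_option linter.unusedSectionVars false

open MeasureTheory Set Filter Topology Metric
open scoped ENNReal ContDiff

namespace Crest.Agent.R130

variable {E : Type*} [NormedAddCommGroup E] [NormedSpace ℝ E] [FiniteDimensional ℝ E]

theorem contDiff_det {n : WithTop ℕ∞} : ContDiff ℝ n fun A : E →L[ℝ] E => A.det := by
  classical
  let b := Module.finBasis ℝ E
  have h : (fun A : E →L[ℝ] E => A.det) = fun A : E →L[ℝ] E =>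
      ∑ σ : Equiv.Perm (Fin (Module.finrank ℝ E)), (Equiv.Perm.sign σ : ℝ) *
        ∏ i, b.coord (σ i) (A (b i)) := by
    funext A
    rw [ContinuousLinearMap.det, ← LinearMap.det_toMatrix b, Matrix.det_apply']
    simp [LinearMap.toMatrix_apply]
  rw [h]
  refine ContDiff.sum fun σ _ => contDiff_const.mul (contDiff_prod fun i _ => ?_)
  exact ((LinearMap.toContinuousLinearMap (b.coord (σ i))).comp
    (ContinuousLinearMap.apply ℝ E (b i))).contDiff

variable [MeasurableSpace E] [BorelSpace E]

/-- `f` is a smooth diffeomorphism from `A` onto an open set, with inverse `g`; both maps are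
measurable on the whole space. -/
structure LocDiffeo (A : Set E) (f g : E → E) : Prop where
  mf : Measurable f
  mg : Measurable g
  isOpen : IsOpen (f '' A)
  left : ∀ x ∈ A, g (f x) = x
  cf : ∀ x ∈ A, ContDiffAt ℝ ∞ f x
  cg : ∀ x ∈ A, ContDiffAt ℝ ∞ g (f x)

theorem exists_locDiffeo {f₀ : E → E} {a : E} (hf : ContDiffAt ℝ ω f₀ a)
    (hinj : Function.Injective (fderiv ℝ f₀ a)) :
    ∃ f g : E → E, ∃ r₁ > 0, EqOn f f₀ (ball a r₁) ∧
      ∀ r, r ≤ r₁ → LocDiffeo (ball a r) f g := by
  classical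
  let L : E ≃L[ℝ] E :=
    (LinearEquiv.ofInjectiveEndo (fderiv ℝ f₀ a : E →ₗ[ℝ] E) hinj).toContinuousLinearEquiv
  have hL : HasFDerivAt f₀ (L : E →L[ℝ] E) a := by
    have : (L : E →L[ℝ] E) = fderiv ℝ f₀ a := by ext x; rfl
    rw [this]
    exact (hf.differentiableAt (by simp)).hasFDerivAt
  let P := hf.toOpenPartialHomeomorph f₀ hL (by simp)
  have hP : (P : E → E) = f₀ := rfl
  have ha : a ∈ P.source := hf.mem_toOpenPartialHomeomorph_source hL (by simp)
  have hsymm : ContDiffAt ℝ ω P.symm (f₀ a) := hf.to_localInverse hL (by simp)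
  have e1 : ∀ᶠ x in 𝓝 a, ContDiffAt ℝ ω f₀ x := hf.eventually (by simp)
  have e2 : ∀ᶠ x in 𝓝 a, ContDiffAt ℝ ω P.symm (f₀ x) :=
    hf.continuousAt.tendsto.eventually (hsymm.eventually (by simp))
  have e3 : ∀ᶠ x in 𝓝 a, x ∈ P.source := P.open_source.mem_nhds ha
  obtain ⟨r₁, hr₁, hball⟩ := Metric.eventually_nhds_iff_ball.1 (e1.and (e2.and e3))
  have hsrc : ball a r₁ ⊆ P.source := fun x hx => (hball x hx).2.2
  have hopen : ∀ r, r ≤ r₁ → IsOpen (f₀ '' ball a r) := fun r hr =>
    P.isOpen_image_of_subset_source isOpen_ball ((ball_subset_ball hr).trans hsrc)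
  let f : E → E := piecewise (ball a r₁) f₀ 0
  let g : E → E := piecewise P.target P.symm 0
  have hff : EqOn f f₀ (ball a r₁) := piecewise_eqOn _ _ _
  have hgg : EqOn g P.symm P.target := piecewise_eqOn _ _ _
  refine ⟨f, g, r₁, hr₁, hff, fun r hr => ?_⟩
  have hsub : ball a r ⊆ ball a r₁ := ball_subset_ball hr
  refine ⟨?_, ?_, ?_, ?_, ?_, ?_⟩
  · exact ContinuousOn.measurable_piecewise (fun x hx => (hball x hx).1.continuousAt.continuousWithinAt)
      continuous_zero.continuousOn measurableSet_ball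
  · exact ContinuousOn.measurable_piecewise P.continuousOn_symm
      continuous_zero.continuousOn P.open_target.measurableSet
  · rw [(hff.mono hsub).image_eq]; exact hopen r hr
  · intro x hx
    rw [hff (hsub hx)]
    exact (hgg (P.map_source (hsrc (hsub hx)))).trans (P.left_inv (hsrc (hsub hx)))
  · intro x hx
    refine ((hball x (hsub hx)).1.of_le le_top).congr_of_eventuallyEq ?_
    exact hff.eventuallyEq_of_mem (isOpen_ball.mem_nhds (hsub hx))
  · intro x hx
    rw [hff (hsub hx)]
    refine ((hball x (hsub hx)).2.1.of_le le_top).congr_of_eventuallyEq ?_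
    exact hgg.eventuallyEq_of_mem (P.open_target.mem_nhds (P.map_source (hsrc (hsub hx))))

theorem LocDiffeo.push (vol : Measure E) [vol.IsAddHaarMeasure] {A : Set E} {f g : E → E}
    (h : LocDiffeo A f g) (hA : IsOpen A) {φ : E → ℝ} (hφ : ContDiff ℝ ∞ φ) (hφ0 : ∀ x, 0 ≤ φ x)
    (hφc : HasCompactSupport φ) (hφA : tsupport φ ⊆ A) :
    ∃ ψ : E → ℝ, ContDiff ℝ ∞ ψ ∧ (∀ y, 0 ≤ ψ y) ∧ HasCompactSupport ψ ∧
      Function.support ψ ⊆ f '' A ∧
      (vol.withDensity fun x => ENNReal.ofReal (φ x ^ 2)).map f =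
        vol.withDensity fun y => ENNReal.ofReal (ψ y ^ 2) := by
  classical
  set V := f '' A with hV
  have hVo : IsOpen V := h.isOpen
  have hright : ∀ y ∈ V, f (g y) = y := by
    rintro _ ⟨x, hx, rfl⟩; rw [h.left x hx]
  have hgA : ∀ y ∈ V, g y ∈ A := by
    rintro _ ⟨x, hx, rfl⟩; rw [h.left x hx]; exact hx
  have hcg : ∀ y ∈ V, ContDiffAt ℝ ∞ g y := by
    rintro _ ⟨x, hx, rfl⟩; exact h.cg x hx
  have hdet : ∀ y ∈ V, (fderiv ℝ g y).det ≠ 0 := by
    intro y hy
    have h1 : HasFDerivAt (f ∘ g) ((fderiv ℝ f (g y)).comp (fderiv ℝ g y)) y :=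
      ((h.cf _ (hgA y hy)).differentiableAt (by simp)).hasFDerivAt.comp y
        ((hcg y hy).differentiableAt (by simp)).hasFDerivAt
    have h2 : HasFDerivAt (f ∘ g) (ContinuousLinearMap.id ℝ E) y := by
      refine (hasFDerivAt_id y).congr_of_eventuallyEq ?_
      filter_upwards [hVo.mem_nhds hy] with z hz using hright z hz
    have h3 := h1.unique h2
    have h4 : ((fderiv ℝ f (g y)).comp (fderiv ℝ g y)).det = 1 := by
      rw [h3]; simp [ContinuousLinearMap.det]
    intro h0
    have h5 : ((fderiv ℝ f (g y)).comp (fderiv ℝ g y)).det =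
        (fderiv ℝ f (g y)).det * (fderiv ℝ g y).det :=
      LinearMap.det_comp (fderiv ℝ f (g y) : E →ₗ[ℝ] E) (fderiv ℝ g y : E →ₗ[ℝ] E)
    rw [h5, h0, mul_zero] at h4
    exact zero_ne_one h4
  let ψ₀ : E → ℝ := fun y => φ (g y) * √|(fderiv ℝ g y).det|
  let ψ : E → ℝ := indicator V ψ₀
  have hK : IsCompact (f '' tsupport φ) :=
    hφc.isCompact.image_of_continuousOn fun x hx =>
      (h.cf x (hφA hx)).continuousAt.continuousWithinAt
  have hsupp : Function.support ψ ⊆ f '' tsupport φ := by
    intro y hy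
    rw [Function.mem_support] at hy
    have hyV : y ∈ V := by
      by_contra hn; exact hy (indicator_of_notMem hn _)
    simp only [ψ, indicator_of_mem hyV, ψ₀] at hy
    exact ⟨g y, subset_tsupport _ (left_ne_zero_of_mul hy), hright y hyV⟩
  refine ⟨ψ, ?_, ?_, ?_, ?_, ?_⟩
  · rw [contDiff_iff_contDiffAt]
    intro y
    by_cases hy : y ∈ V
    · have h1 : ContDiffAt ℝ ∞ ψ₀ y := by
        refine (hφ.contDiffAt.comp y (hcg y hy)).mul ?_
        have h2 : ContDiffAt ℝ ∞ (fun y => (fderiv ℝ g y).det) y :=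
          contDiff_det.contDiffAt.comp y ((hcg y hy).fderiv_right (m := ∞) (by simp))
        exact (h2.abs (hdet y hy)).sqrt (abs_ne_zero.2 (hdet y hy))
      refine h1.congr_of_eventuallyEq ?_
      filter_upwards [hVo.mem_nhds hy] with z hz using indicator_of_mem hz _
    · have hy' : y ∈ (f '' tsupport φ)ᶜ := fun hn => hy (image_mono hφA hn)
      refine (contDiffAt_const (c := (0 : ℝ))).congr_of_eventuallyEq ?_
      filter_upwards [hK.isClosed.isOpen_compl.mem_nhds hy'] with z hz
      by_contra hne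
      exact hz (hsupp hne)
  · intro y
    exact indicator_nonneg (fun y _ => mul_nonneg (hφ0 _) (Real.sqrt_nonneg _)) y
  · exact HasCompactSupport.of_support_subset_isCompact hK hsupp
  · exact hsupp.trans (image_mono hφA)
  · refine Measure.ext fun t ht => ?_
    rw [Measure.map_apply h.mf ht, withDensity_apply _ (h.mf ht), withDensity_apply _ ht,
      ← lintegral_indicator (h.mf ht), ← lintegral_indicator ht]
    have hgV : g '' V = A := by
      apply Subset.antisymm
      · rintro _ ⟨y, hy, rfl⟩; exact hgA y hy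
      · intro x hx; exact ⟨f x, mem_image_of_mem _ hx, h.left x hx⟩
    have hinj : InjOn g V := fun y hy y' hy' e => by rw [← hright y hy, e, hright y' hy']
    have h1 := lintegral_image_eq_lintegral_abs_det_fderiv_mul vol hVo.measurableSet
      (fun y hy => ((hcg y hy).differentiableAt (by simp)).hasFDerivAt.hasFDerivWithinAt) hinj
      ((f ⁻¹' t).indicator fun x => ENNReal.ofReal (φ x ^ 2))
    rw [hgV] at h1
    have h2 : ∫⁻ x, (f ⁻¹' t).indicator (fun x => ENNReal.ofReal (φ x ^ 2)) x ∂vol =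
        ∫⁻ x in A, (f ⁻¹' t).indicator (fun x => ENNReal.ofReal (φ x ^ 2)) x ∂vol := by
      rw [← lintegral_indicator hA.measurableSet]
      refine lintegral_congr fun x => ?_
      by_cases hx : x ∈ A
      · rw [indicator_of_mem hx]
      · rw [indicator_of_notMem hx]
        have : φ x = 0 := by
          by_contra hne
          exact hx (hφA (subset_tsupport _ hne))
        simp [indicator, this]
    rw [h2, h1, ← lintegral_indicator hVo.measurableSet]
    refine lintegral_congr fun y => ?_
    by_cases hy : y ∈ V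
    · rw [indicator_of_mem hy]
      by_cases hyt : y ∈ t
      · have : g y ∈ f ⁻¹' t := by rw [mem_preimage, hright y hy]; exact hyt
        rw [indicator_of_mem hyt, indicator_of_mem this, ← ENNReal.ofReal_mul (abs_nonneg _)]
        simp only [ψ, indicator_of_mem hy, ψ₀, mul_pow, Real.sq_sqrt (abs_nonneg _)]
        rw [mul_comm]
      · have : g y ∉ f ⁻¹' t := by rw [mem_preimage, hright y hy]; exact hyt
        rw [indicator_of_notMem hyt, indicator_of_notMem this, mul_zero]
    · rw [indicator_of_notMem hy]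
      simp [indicator, ψ, hy]

end Crest.Agent.R130
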