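import Mathlib
import Crest.Prelude.Def_MultiMarginal
import Crest.Agent.R130.Approx
import Crest.Agent.R130.Bowtie
import Crest.Agent.R130.Density
import Crest.Agent.R130.Arm

/-!
The dual potential of the bowtie and its contact set.
-/

set_option autoImplicit false
set_option linter.unusedSectionVars false

open MeasureTheory Set Filter Topology Metric
open scoped ContDiff RealInnerProductSpace ENNReal
open Crest.AnalysisR.OT

namespace Crest.Agent.R130

section cost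

variable {E : Type*} [NormedAddCommGroup E]

theorem pairCost_eq (s : ℝ) {x y : E} (h : x - y ≠ 0) :
    pairCost s x y = ENNReal.ofReal (‖x - y‖ ^ (-s)) :=
  ENNReal.ofReal_rpow_of_pos (norm_pos_iff.2 h)

theorem pairCost_ge {s : ℝ} (hs : 0 ≤ s) {x y : E} {t : ℝ} (ht : 0 < t) (h : ‖x - y‖ ≤ t) :
    ENNReal.ofReal (t ^ (-s)) ≤ pairCost s x y := by
  rw [← ENNReal.ofReal_rpow_of_pos ht]
  exact enn_rpow_neg_anti hs (ENNReal.ofReal_le_ofReal h)

theorem tripleCost_swap12 (s : ℝ) (x y z : E) :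
    tripleCost s (y, x, z) = tripleCost s (x, y, z) := by
  simp only [tripleCost, pairCost_comm s y x]; ring

theorem tripleCost_swap23 (s : ℝ) (x y z : E) :
    tripleCost s (x, z, y) = tripleCost s (x, y, z) := by
  simp only [tripleCost, pairCost_comm s z y]; ring

theorem tripleCost_eq (s : ℝ) {x y z : E} (h1 : x - y ≠ 0) (h2 : x - z ≠ 0) (h3 : y - z ≠ 0) :
    tripleCost s (x, y, z) =
      ENNReal.ofReal (‖x - y‖ ^ (-s) + ‖x - z‖ ^ (-s) + ‖y - z‖ ^ (-s)) := by
  simp only [tripleCost, pairCost_eq s h1, pairCost_eq s h2, pairCost_eq s h3]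
  rw [ENNReal.ofReal_add (by positivity) (by positivity),
    ENNReal.ofReal_add (by positivity) (by positivity)]

/-- The potential lies strictly below the cost. -/
def Strict (s : ℝ) (u : E → ℝ) (x y z : E) : Prop :=
  ∃ t : ℝ, 0 ≤ t ∧ u x + u y + u z < t ∧ ENNReal.ofReal t ≤ tripleCost s (x, y, z)

/-- The potential touches the cost. -/
def Tight (s : ℝ) (u : E → ℝ) (x y z : E) : Prop :=
  0 ≤ u x + u y + u z ∧ tripleCost s (x, y, z) = ENNReal.ofReal (u x + u y + u z)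

theorem Strict.swap12 {s : ℝ} {u : E → ℝ} {x y z : E} (h : Strict s u x y z) :
    Strict s u y x z := by
  obtain ⟨t, h0, h1, h2⟩ := h
  exact ⟨t, h0, by linarith, by rwa [tripleCost_swap12]⟩

theorem Strict.swap23 {s : ℝ} {u : E → ℝ} {x y z : E} (h : Strict s u x y z) :
    Strict s u x z y := by
  obtain ⟨t, h0, h1, h2⟩ := h
  exact ⟨t, h0, by linarith, by rwa [tripleCost_swap23]⟩

theorem Tight.swap12 {s : ℝ} {u : E → ℝ} {x y z : E} (h : Tight s u x y z) :
    Tight s u y x z := by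
  obtain ⟨h0, h1⟩ := h
  exact ⟨by linarith, by rw [tripleCost_swap12, h1]; congr 1; ring⟩

theorem Tight.swap23 {s : ℝ} {u : E → ℝ} {x y z : E} (h : Tight s u x y z) :
    Tight s u x z y := by
  obtain ⟨h0, h1⟩ := h
  exact ⟨by linarith, by rw [tripleCost_swap23, h1]; congr 1; ring⟩

end cost

variable {E : Type*} [NormedAddCommGroup E] [InnerProductSpace ℝ E] [FiniteDimensional ℝ E]
  [MeasurableSpace E] [BorelSpace E]

/-- The four outer centres. -/
def ctr (v : Bool → E) (j σ : Bool) : E := if σ then v j else -v j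

theorem norm_ctr {v : Bool → E} (hv : ∀ j, ‖v j‖ = 1) (j σ : Bool) : ‖ctr v j σ‖ = 1 := by
  cases σ <;> simp [ctr, hv]

theorem norm_ctr_sub_sq {v : Bool → E} (hv : ∀ j, ‖v j‖ = 1) (hvv : ⟪v false, v true⟫ = 0)
    (j σ j' σ' : Bool) : ‖ctr v j σ - ctr v j' σ'‖ ^ 2 =
      if j = j' then (if σ = σ' then 0 else 4) else 2 := by
  have hvv' : ⟪v true, v false⟫ = 0 := by rw [real_inner_comm]; exact hvv
  rw [norm_sub_sq_real, norm_ctr hv, norm_ctr hv]
  cases j <;> cases j' <;> cases σ <;> cases σ' <;>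
    simp [ctr, hvv, hvv', inner_neg_left, inner_neg_right, real_inner_self_eq_norm_sq, hv] <;>
    norm_num

theorem one_le_norm_ctr_sub {v : Bool → E} (hv : ∀ j, ‖v j‖ = 1) (hvv : ⟪v false, v true⟫ = 0)
    {j σ j' σ' : Bool} (h : ¬ (j = j' ∧ σ = σ')) : 1 ≤ ‖ctr v j σ - ctr v j' σ'‖ := by
  have h1 := norm_ctr_sub_sq hv hvv j σ j' σ'
  have h2 : 1 ≤ ‖ctr v j σ - ctr v j' σ'‖ ^ 2 := by
    rw [h1]; split_ifs with a b
    · exact absurd ⟨a, b⟩ h
    · norm_num
    · norm_num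
  by_contra hn
  nlinarith [norm_nonneg (ctr v j σ - ctr v j' σ')]

theorem norm_ctr_sub_le {v : Bool → E} (hv : ∀ j, ‖v j‖ = 1) (hvv : ⟪v false, v true⟫ = 0)
    {j σ j' σ' : Bool} (h : ¬ (j' = j ∧ σ' = !σ)) : ‖ctr v j σ - ctr v j' σ'‖ ≤ 3 / 2 := by
  have h1 := norm_ctr_sub_sq hv hvv j σ j' σ'
  have h2 : ‖ctr v j σ - ctr v j' σ'‖ ^ 2 ≤ 2 := by
    rw [h1]; split_ifs with a b
    · norm_num
    · exact absurd ⟨a.symm, by cases σ <;> cases σ' <;> simp_all⟩ h
    · norm_num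
  by_contra hn
  nlinarith [norm_nonneg (ctr v j σ - ctr v j' σ')]

theorem norm_sub_le_of_ball {a b x y : E} {r : ℝ} (hx : x ∈ ball a r) (hy : y ∈ ball b r) :
    ‖x - y‖ ≤ ‖a - b‖ + 2 * r := by
  rw [mem_ball, dist_eq_norm] at hx hy
  have : x - y = (x - a) + (a - b) - (y - b) := by abel
  rw [this]
  linarith [norm_sub_le ((x - a) + (a - b)) (y - b), norm_add_le (x - a) (a - b)]

theorem le_norm_sub_of_ball {a b x y : E} {r : ℝ} (hx : x ∈ ball a r) (hy : y ∈ ball b r) :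
    ‖a - b‖ - 2 * r ≤ ‖x - y‖ := by
  rw [mem_ball, dist_eq_norm] at hx hy
  have : a - b = (x - y) - (x - a) + (y - b) := by abel
  rw [this]
  linarith [norm_add_le ((x - y) - (x - a)) (y - b), norm_sub_le (x - y) (x - a)]

theorem measurable_GG (s : ℝ) (e : E) {X Y Z : E → E} (hX : Measurable X) (hY : Measurable Y)
    (hZ : Measurable Z) : Measurable fun y => GG s e (X y) (Y y) (Z y) := by
  unfold GG
  refine Measurable.add (Measurable.add (Measurable.add (Measurable.add ?_ ?_) ?_) ?_)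
    (Measurable.add ?_ ?_)
  · exact (hX.sub hY).norm.pow_const _
  · exact (hX.sub hZ).norm.pow_const _
  · exact (hY.sub hZ).norm.pow_const _
  · exact (hX.norm.pow_const _).const_mul _
  · exact ((hZ.sub_const e).norm.pow_const _).const_mul _
  · exact (measurable_const.inner (hZ.sub_const e)).const_mul _

theorem GG_center (s : ℝ) {e : E} (he : ‖e‖ = 1) : GG s e 0 (-e) e = 2 + 2 ^ (-s) := by
  have : -e - e = (-2 : ℝ) • e := by module
  simp [GG, he, this, norm_smul]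
  norm_num

theorem continuousAt_GG (s : ℝ) {e : E} (he : ‖e‖ = 1) :
    ContinuousAt (fun y => GG s e 0 y e) (-e) := by
  have he0 : e ≠ 0 := by rintro rfl; simp at he
  unfold GG
  refine ContinuousAt.add (ContinuousAt.add (ContinuousAt.add (ContinuousAt.add ?_ ?_) ?_) ?_) ?_
  · exact ContinuousAt.rpow_const (by fun_prop) (Or.inl (by simpa using he0))
  · exact continuousAt_const
  · refine ContinuousAt.rpow_const (by fun_prop) (Or.inl ?_)
    have : -e - e = (-2 : ℝ) • e := by module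
    simp [this, norm_smul, he]
  · exact continuousAt_const
  · exact continuousAt_const

/-- The support of the bowtie. -/
def bowSet (A : Set E) (f : Bool → Bool → E → E) : Set E := A ∪ ⋃ j, ⋃ σ, f j σ '' A

theorem exists_bowtie {s : ℝ} (hs : 0 < s) {v : Bool → E} (hv : ∀ j, ‖v j‖ = 1)
    (hvv : ⟪v false, v true⟫ = 0) :
    ∃ r > 0, r ≤ 1 / 4 ∧ ∃ (f g : Bool → Bool → E → E) (u : E → ℝ) (m : ℝ), Measurable u ∧
      (∀ j σ, LocDiffeo (ball 0 r) (f j σ) (g j σ)) ∧
      (∀ j σ, ∀ x ∈ ball (0 : E) r, f j σ x ∈ ball (ctr v j σ) (1 / 4)) ∧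
      (∀ x ∈ bowSet (ball 0 r) f, |u x| ≤ m) ∧
      (∀ j, ∀ x ∈ ball (0 : E) r, Tight s u x (f j false x) (f j true x)) ∧
      ∀ x ∈ bowSet (ball 0 r) f, ∀ y ∈ bowSet (ball 0 r) f, ∀ z ∈ bowSet (ball 0 r) f,
        IsTri (ball 0 r) f (x, y, z) ∨ Strict s u x y z := by
  choose β γ hβ0 hγ0 hβ hγ hβi hγi hΨ using fun j => exists_implicit hs (hv j)
  choose ρ hρ hmin using fun j => exists_strict_min hs (hv j)
  have hF : ∀ j σ : Bool, ∃ f g : E → E, ∃ r₁ > 0, EqOn f (if σ then γ j else β j) (ball 0 r₁) ∧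
      ∀ r, r ≤ r₁ → LocDiffeo (ball 0 r) f g := by
    intro j σ
    cases σ
    · exact exists_locDiffeo (hβ j) (hβi j)
    · exact exists_locDiffeo (hγ j) (hγi j)
  choose f g r₁ hr₁ hfeq hdiff using hF
  set α : ℝ := 2 + 2 ^ (-s) with hα
  have h2s : (2 : ℝ) ^ (-s) < (3 / 2 : ℝ) ^ (-s) :=
    Real.rpow_lt_rpow_of_neg (by norm_num) (by norm_num) (by linarith)
  have h2s' : (2 : ℝ) ^ (-s) ≤ 1 := Real.rpow_le_one_of_one_le_of_nonpos (by norm_num) (by linarith)
  have h2s'' : 0 < (2 : ℝ) ^ (-s) := by positivity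
  have h4s : 0 < (4 : ℝ) ^ (-s) := by positivity
  have h4s' : (4 : ℝ) ^ (-s) ≤ 1 := Real.rpow_le_one_of_one_le_of_nonpos (by norm_num) (by linarith)
  set η : ℝ := min (4 ^ (-s) / 4) (((3 / 2 : ℝ) ^ (-s) - 2 ^ (-s)) / 4) with hη
  have hη0 : 0 < η := lt_min (by positivity) (by linarith)
  have hη1 : η ≤ 4 ^ (-s) / 4 := min_le_left _ _
  have hη2 : η ≤ ((3 / 2 : ℝ) ^ (-s) - 2 ^ (-s)) / 4 := min_le_right _ _
  let uC : Bool → E → ℝ := fun j z =>
    -(s * ‖z - v j‖ ^ 2 + s * (1 + 2 * qq s) * ⟪v j, z - v j⟫)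
  -- the outer radius
  have e1 : ∀ᶠ t in 𝓝[>] (0 : ℝ), 9 < (2 * t) ^ (-s) := by
    have h1 : Tendsto (fun t : ℝ => 2 * t) (𝓝[>] 0) (𝓝[>] 0) := by
      refine tendsto_nhdsWithin_iff.2 ⟨?_, ?_⟩
      · have : Continuous fun t : ℝ => 2 * t := by fun_prop
        simpa using (this.tendsto 0).mono_left nhdsWithin_le_nhds
      · filter_upwards [self_mem_nhdsWithin] with t ht using mul_pos two_pos (show 0 < t from ht)
    exact ((tendsto_rpow_neg_nhdsGT_zero (neg_lt_zero.2 hs)).comp h1).eventually_gt_atTop 9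
  have e2 : ∀ᶠ t in 𝓝 (0 : ℝ), α + 2 * η < (1 + 2 * t) ^ (-s) + (1 + 2 * t) ^ (-s) +
      (3 / 2 + 2 * t) ^ (-s) := by
    have h1 : ContinuousAt (fun t : ℝ => (1 + 2 * t) ^ (-s) + (1 + 2 * t) ^ (-s) +
        (3 / 2 + 2 * t) ^ (-s)) 0 := by
      refine ContinuousAt.add (ContinuousAt.add ?_ ?_) ?_ <;>
        exact ContinuousAt.rpow_const (by fun_prop) (Or.inl (by norm_num))
    refine h1.eventually (lt_mem_nhds ?_)
    simp only [mul_zero, add_zero, Real.one_rpow]
    linarith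
  have e3 : ∀ᶠ t in 𝓝 (0 : ℝ), ∀ j, ball (-v j) t ⊆ {y | GG s (v j) 0 y (v j) - α < η} := by
    refine eventually_all.2 fun j => eventually_ball_subset ?_
    refine ((continuousAt_GG s (hv j)).sub continuousAt_const).eventually (gt_mem_nhds ?_)
    show GG s (v j) 0 (-v j) (v j) - α < η
    simp only [GG_center s (hv j), hα, sub_self, hη0]
  have e4 : ∀ᶠ t in 𝓝 (0 : ℝ), ∀ j, ball (v j) t ⊆ {z | uC j z < η} := by
    refine eventually_all.2 fun j => eventually_ball_subset ?_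
    have : Continuous (uC j) := by simp only [uC]; fun_prop
    refine this.continuousAt.eventually (gt_mem_nhds ?_)
    simp [uC, hη0]
  have e5 : ∀ᶠ t in 𝓝 (0 : ℝ), ∀ j, t < ρ j :=
    eventually_all.2 fun j => gt_mem_nhds (hρ j)
  have e6 : ∀ᶠ t in 𝓝 (0 : ℝ), t < 1 / 4 := gt_mem_nhds (by norm_num)
  obtain ⟨r₀, ⟨c1, hr₀⟩, c2, c3, c4, c5, c6⟩ := ((e1.and self_mem_nhdsWithin).and
    ((e2.and (e3.and (e4.and (e5.and e6)))).filter_mono nhdsWithin_le_nhds)).exists
  replace hr₀ : 0 < r₀ := hr₀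
  -- the inner radius
  have d1 : ∀ᶠ t in 𝓝 (0 : ℝ), ∀ j, ball (0 : E) t ⊆ {x | Psi s (v j) (x, β j x, γ j x) = 0} :=
    eventually_all.2 fun j => eventually_ball_subset (hΨ j)
  have d2 : ∀ᶠ t in 𝓝 (0 : ℝ), ∀ j, ball (0 : E) t ⊆ β j ⁻¹' ball (-v j) r₀ :=
    eventually_all.2 fun j => eventually_ball_subset
      ((hβ j).continuousAt.preimage_mem_nhds (hβ0 j ▸ ball_mem_nhds _ hr₀))
  have d3 : ∀ᶠ t in 𝓝 (0 : ℝ), ∀ j, ball (0 : E) t ⊆ γ j ⁻¹' ball (v j) r₀ :=
    eventually_all.2 fun j => eventually_ball_subset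
      ((hγ j).continuousAt.preimage_mem_nhds (hγ0 j ▸ ball_mem_nhds _ hr₀))
  have d4 : ∀ᶠ t in 𝓝 (0 : ℝ), ∀ j σ, t < r₁ j σ :=
    eventually_all.2 fun j => eventually_all.2 fun σ => gt_mem_nhds (hr₁ j σ)
  have d5 : ∀ᶠ t in 𝓝 (0 : ℝ), t < r₀ := gt_mem_nhds hr₀
  have d0 : ∀ᶠ t in 𝓝[>] (0 : ℝ), t ∈ Ioi 0 := self_mem_nhdsWithin
  obtain ⟨r, hr, b1, b2, b3, b4, b5⟩ := (d0.and
    ((d1.and (d2.and (d3.and (d4.and d5)))).filter_mono nhdsWithin_le_nhds)).exists
  replace hr : 0 < r := hr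
  have hD : ∀ j σ, LocDiffeo (ball 0 r) (f j σ) (g j σ) := fun j σ => hdiff j σ r (b4 j σ).le
  have hfβ : ∀ j, ∀ x ∈ ball (0 : E) r, f j false x = β j x := fun j x hx => by
    simpa using hfeq j false (ball_subset_ball (b4 j false).le hx)
  have hfγ : ∀ j, ∀ x ∈ ball (0 : E) r, f j true x = γ j x := fun j x hx => by
    simpa using hfeq j true (ball_subset_ball (b4 j true).le hx)
  have hfm : ∀ j σ, ∀ x ∈ ball (0 : E) r, f j σ x ∈ ball (ctr v j σ) r₀ := by
    intro j σ x hx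
    cases σ
    · rw [hfβ j x hx]; exact b2 j hx
    · rw [hfγ j x hx]; exact b3 j hx
  have hfB : ∀ j, ∀ x ∈ ball (0 : E) r, f j false x ∈ ball (-v j) r₀ := fun j => hfm j false
  have hfC : ∀ j, ∀ x ∈ ball (0 : E) r, f j true x ∈ ball (v j) r₀ := fun j => hfm j true
  have hA0 : ball (0 : E) r ⊆ ball 0 r₀ := ball_subset_ball b5.le
  have hq : ∀ c : E, ball c r₀ ⊆ ball c (1 / 4) := fun c => ball_subset_ball c6.le
  have hmin' : ∀ j, ∀ x₁ ∈ ball (0 : E) r, ∀ x ∈ ball (0 : E) r₀, ∀ z ∈ ball (v j) r₀,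
      (x, z) ≠ (x₁, f j true x₁) →
      GG s (v j) x₁ (f j false x₁) (f j true x₁) < GG s (v j) x (f j false x₁) z := by
    intro j x₁ hx₁ x hx z hz hne
    have hb : ∀ c : E, ball c r₀ ⊆ ball c (ρ j) := fun c => ball_subset_ball (c5 j).le
    refine hmin j x₁ (hb _ (hA0 hx₁)) _ (hb _ (hfB j x₁ hx₁)) _ (hb _ (hfC j x₁ hx₁)) ?_
      x (hb _ hx) z (hb _ hz) hne
    rw [hfβ j x₁ hx₁, hfγ j x₁ hx₁]
    exact b1 j hx₁
  -- the potential
  let uA : E → ℝ := fun x => α - 2 * s * ‖x‖ ^ 2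
  let uB : Bool → E → ℝ := fun j y => GG s (v j) (g j false y) y (f j true (g j false y)) - α
  let T : Option (Bool × Bool) → Set E := fun i => ball (i.elim 0 fun i => ctr v i.1 i.2) (1 / 2)
  let W : Option (Bool × Bool) → E → ℝ := fun i =>
    i.elim uA fun i => if i.2 then uC i.1 else uB i.1
  obtain ⟨u, hu, huW⟩ := exists_measurable_piecewise T (fun i => measurableSet_ball) W (by
      rintro (_ | ⟨j, σ⟩)
      · exact (show Continuous uA by simp only [uA]; fun_prop).measurable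
      · cases σ
        · exact (measurable_GG s (v j) (hD j false).mg measurable_id
            ((hD j true).mf.comp (hD j false).mg)).sub_const α
        · exact (show Continuous (uC j) by simp only [uC]; fun_prop).measurable) (by
      intro i i' hne x hx
      exfalso
      have hdisj : Disjoint (T i) (T i') := by
        refine ball_disjoint_ball ?_
        rw [dist_eq_norm, add_halves]
        rcases i with _ | ⟨j, σ⟩ <;> rcases i' with _ | ⟨j', σ'⟩
        · exact absurd rfl hne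
        · simp [norm_ctr hv]
        · simp [norm_ctr hv]
        · exact one_le_norm_ctr_sub hv hvv (by rintro ⟨rfl, rfl⟩; exact hne rfl)
      exact Set.disjoint_left.1 hdisj hx.1 hx.2)
  have hh : ∀ c : E, ball c r₀ ⊆ ball c (1 / 2) := fun c => ball_subset_ball (by linarith)
  have huA : ∀ x ∈ ball (0 : E) r, u x = uA x := fun x hx => huW none (hh _ (hA0 hx))
  have huB : ∀ j, ∀ x ∈ ball (0 : E) r,
      u (f j false x) = GG s (v j) x (f j false x) (f j true x) - α := by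
    intro j x hx
    rw [huW (some (j, false)) (hh _ (hfm j false x hx))]
    simp only [W, Option.elim, Bool.false_eq_true, if_false, uB, (hD j false).left x hx]
  have huC : ∀ j, ∀ x ∈ ball (0 : E) r, u (f j true x) = uC j (f j true x) := by
    intro j x hx
    rw [huW (some (j, true)) (hh _ (hfm j true x hx))]
    simp only [W, Option.elim, if_true]
  -- bounds
  have hGle : ∀ j, ∀ x ∈ ball (0 : E) r, GG s (v j) x (f j false x) (f j true x) ≤
      GG s (v j) 0 (f j false x) (v j) := by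
    intro j x hx
    by_cases hne : ((0 : E), v j) = (x, f j true x)
    · obtain ⟨h1, h2⟩ := Prod.mk.inj hne
      rw [← h2, ← h1]
    · exact (hmin' j x hx 0 (mem_ball_self hr₀) _ (mem_ball_self hr₀) hne).le
  have hout : ∀ j σ, ∀ x ∈ ball (0 : E) r, u (f j σ x) < η := by
    intro j σ x hx
    cases σ
    · rw [huB j x hx]
      have : GG s (v j) 0 (f j false x) (v j) - α < η := c3 j (hfB j x hx)
      linarith [hGle j x hx]
    · rw [huC j x hx]
      exact c4 j (hfC j x hx)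
  have hin : ∀ x ∈ ball (0 : E) r, u x ≤ α := by
    intro x hx
    rw [huA x hx]
    have : 0 ≤ 2 * s * ‖x‖ ^ 2 := by positivity
    simp only [uA]; linarith
  have hq0 := qq_pos s
  have hq1 := qq_lt hs
  have hinner : ∀ j, ∀ z ∈ ball (v j) r₀, |s * (1 + 2 * qq s) * ⟪v j, z - v j⟫| ≤ 2 * s := by
    intro j z hz
    have h1 := abs_real_inner_le_norm (v j) (z - v j)
    rw [mem_ball, dist_eq_norm] at hz
    rw [hv j, one_mul] at h1
    rw [abs_mul, abs_of_pos (by positivity)]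
    have h2 : |⟪v j, z - v j⟫| ≤ 1 := by linarith
    calc s * (1 + 2 * qq s) * |⟪v j, z - v j⟫| ≤ s * 2 * 1 := by gcongr; linarith
      _ = 2 * s := by ring
  have hK : ∀ x ∈ bowSet (ball (0 : E) r) f, x ∈ ball (0 : E) r ∨
      ∃ j σ, ∃ x₀ ∈ ball (0 : E) r, x = f j σ x₀ := by
    rintro x (hx | hx)
    · exact Or.inl hx
    · simp only [mem_iUnion, mem_image] at hx
      obtain ⟨j, σ, x₀, h0, h1⟩ := hx
      exact Or.inr ⟨j, σ, x₀, h0, h1.symm⟩
  have hle3 : ∀ x ∈ bowSet (ball (0 : E) r) f, u x ≤ 3 := by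
    intro x hx
    rcases hK x hx with hx | ⟨j, σ, x₀, h0, rfl⟩
    · linarith [hin x hx]
    · linarith [hout j σ x₀ h0]
  -- the cost on triples of the right type
  have hcost : ∀ j, ∀ x ∈ ball (0 : E) r, ∀ x₁ ∈ ball (0 : E) r, ∀ x₂ ∈ ball (0 : E) r,
      ∃ t : ℝ, 0 ≤ t ∧ tripleCost s (x, f j false x₁, f j true x₂) = ENNReal.ofReal t ∧
        t - (u x + u (f j false x₁) + u (f j true x₂)) =
          GG s (v j) x (f j false x₁) (f j true x₂) -
            GG s (v j) x₁ (f j false x₁) (f j true x₁) := by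
    intro j x hx x₁ hx₁ x₂ hx₂
    refine ⟨_, by positivity, tripleCost_eq s ?_ ?_ ?_, ?_⟩
    · exact ne_of_near (hv j) (a := 0) (b := -1) (by norm_num) (by simpa using hq _ (hA0 hx))
        (by simpa using hq _ (hfB j x₁ hx₁))
    · exact ne_of_near (hv j) (a := 0) (b := 1) (by norm_num) (by simpa using hq _ (hA0 hx))
        (by simpa using hq _ (hfC j x₂ hx₂))
    · exact ne_of_near (hv j) (a := -1) (b := 1) (by norm_num)
        (by simpa using hq _ (hfB j x₁ hx₁)) (by simpa using hq _ (hfC j x₂ hx₂))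
    · rw [huA x hx, huB j x₁ hx₁, huC j x₂ hx₂]
      simp only [uA, uC]
      rw [GG.eq_1 s (v j) x]
      ring
  have hgood : ∀ j, ∀ x ∈ ball (0 : E) r, ∀ x₁ ∈ ball (0 : E) r, ∀ x₂ ∈ ball (0 : E) r,
      (x₁ = x ∧ x₂ = x) ∨ Strict s u x (f j false x₁) (f j true x₂) := by
    intro j x hx x₁ hx₁ x₂ hx₂
    by_cases hne : (x, f j true x₂) = (x₁, f j true x₁)
    · obtain ⟨h1, h2⟩ := Prod.mk.inj hne
      refine Or.inl ⟨h1.symm, ?_⟩
      rw [h1, ← (hD j true).left x₂ hx₂, h2, (hD j true).left x₁ hx₁]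
    · obtain ⟨t, h0, h1, h2⟩ := hcost j x hx x₁ hx₁ x₂ hx₂
      have := hmin' j x₁ hx₁ x (hA0 hx) _ (hfC j x₂ hx₂) hne
      exact Or.inr ⟨t, h0, by linarith, h1.ge⟩
  have LAA : ∀ x ∈ ball (0 : E) r, ∀ y ∈ ball (0 : E) r, ∀ z ∈ bowSet (ball (0 : E) r) f,
      Strict s u x y z := by
    intro x hx y hy z hz
    refine ⟨(2 * r₀) ^ (-s), by positivity, ?_, ?_⟩
    · linarith [hin x hx, hin y hy, hle3 z hz]
    · refine le_trans (pairCost_ge hs.le (by positivity) ?_) (le_trans le_self_add le_self_add)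
      simpa using norm_sub_le_of_ball (hA0 hx) (hA0 hy)
  have LOOO : ∀ j σ j' σ' j'' σ'', ∀ x ∈ ball (0 : E) r, ∀ y ∈ ball (0 : E) r,
      ∀ z ∈ ball (0 : E) r, Strict s u (f j σ x) (f j' σ' y) (f j'' σ'' z) := by
    intro j σ j' σ' j'' σ'' x hx y hy z hz
    refine ⟨4 ^ (-s), by positivity, ?_, ?_⟩
    · linarith [hout j σ x hx, hout j' σ' y hy, hout j'' σ'' z hz]
    · refine le_trans (pairCost_ge hs.le (by positivity) ?_) (le_trans le_self_add le_self_add)
      have h1 := norm_sub_le_of_ball (hfm j σ x hx) (hfm j' σ' y hy)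
      have h2 := norm_sub_le (ctr v j σ) (ctr v j' σ')
      rw [norm_ctr hv, norm_ctr hv] at h2
      simp only
      linarith
  have LAOO : ∀ j σ j' σ', ∀ x ∈ ball (0 : E) r, ∀ y ∈ ball (0 : E) r,
      ∀ z ∈ ball (0 : E) r, (f j σ y = f j σ x ∧ f j' σ' z = f j (!σ) x) ∨
        Strict s u x (f j σ y) (f j' σ' z) := by
    intro j σ j' σ' x hx y hy z hz
    by_cases hc : j' = j ∧ σ' = !σ
    · obtain ⟨rfl, rfl⟩ := hc
      cases σ
      · rcases hgood j' x hx y hy z hz with ⟨rfl, rfl⟩ | h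
        · exact Or.inl ⟨rfl, rfl⟩
        · exact Or.inr h
      · rcases hgood j' x hx z hz y hy with ⟨rfl, rfl⟩ | h
        · exact Or.inl ⟨rfl, rfl⟩
        · exact Or.inr h.swap23
    · refine Or.inr ⟨(1 + 2 * r₀) ^ (-s) + (1 + 2 * r₀) ^ (-s) + (3 / 2 + 2 * r₀) ^ (-s),
        by positivity, ?_, ?_⟩
      · linarith [hin x hx, hout j σ y hy, hout j' σ' z hz]
      · rw [ENNReal.ofReal_add (by positivity) (by positivity),
          ENNReal.ofReal_add (by positivity) (by positivity)]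
        refine add_le_add (add_le_add ?_ ?_) ?_
        · refine pairCost_ge hs.le (by positivity) ?_
          simpa [norm_ctr hv] using norm_sub_le_of_ball (hA0 hx) (hfm j σ y hy)
        · refine pairCost_ge hs.le (by positivity) ?_
          simpa [norm_ctr hv] using norm_sub_le_of_ball (hA0 hx) (hfm j' σ' z hz)
        · refine pairCost_ge hs.le (by positivity) ?_
          have h1 := norm_sub_le_of_ball (hfm j σ y hy) (hfm j' σ' z hz)
          have h2 := norm_ctr_sub_le hv hvv hc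
          simp only
          linarith
  refine ⟨r, hr, by linarith, f, g, u, 3 * s + 3, hu, hD, fun j σ x hx => hq _ (hfm j σ x hx),
    ?_, ?_, ?_⟩
  · intro x hx
    refine abs_le.2 ⟨?_, by linarith [hle3 x hx]⟩
    rcases hK x hx with hx | ⟨j, σ, x₀, h0, rfl⟩
    · rw [huA x hx]
      have h1 : ‖x‖ ≤ 1 := by
        have := hq _ (hA0 hx)
        rw [mem_ball_zero_iff] at this
        linarith
      have h2 : ‖x‖ ^ 2 ≤ 1 := by nlinarith [norm_nonneg x]
      simp only [uA]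
      nlinarith
    · have h3 := abs_le.1 (hinner j _ (hfC j x₀ h0))
      cases σ
      · rw [huB j x₀ h0, GG]
        have a1 : 0 ≤ ‖x₀ - f j false x₀‖ ^ (-s) := by positivity
        have a2 : 0 ≤ ‖x₀ - f j true x₀‖ ^ (-s) := by positivity
        have a3 : 0 ≤ ‖f j false x₀ - f j true x₀‖ ^ (-s) := by positivity
        have a4 : 0 ≤ 2 * s * ‖x₀‖ ^ 2 := by positivity
        have a5 : 0 ≤ s * ‖f j true x₀ - v j‖ ^ 2 := by positivity
        linarith [h3.1]
      · rw [huC j x₀ h0]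
        have h1 : ‖f j true x₀ - v j‖ ≤ 1 := by
          have := hq _ (hfC j x₀ h0)
          rw [mem_ball, dist_eq_norm] at this
          linarith
        have h2 : ‖f j true x₀ - v j‖ ^ 2 ≤ 1 := by nlinarith [norm_nonneg (f j true x₀ - v j)]
        simp only [uC]
        nlinarith [h3.2]
  · intro j x hx
    obtain ⟨t, h0, h1, h2⟩ := hcost j x hx x hx x hx
    have : u x + u (f j false x) + u (f j true x) = t := by linarith
    exact ⟨this ▸ h0, this ▸ h1⟩
  · intro x hx y hy z hz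
    rcases hK x hx with hx' | ⟨j, σ, x₀, hx₀, rfl⟩ <;>
    rcases hK y hy with hy' | ⟨j', σ', y₀, hy₀, rfl⟩ <;>
    rcases hK z hz with hz' | ⟨j'', σ'', z₀, hz₀, rfl⟩
    · exact Or.inr (LAA x hx' y hy' z hz)
    · exact Or.inr (LAA x hx' y hy' _ hz)
    · exact Or.inr (LAA x hx' z hz' _ hy).swap23
    · rcases LAOO j' σ' j'' σ'' x hx' y₀ hy₀ z₀ hz₀ with ⟨h1, h2⟩ | h
      · exact Or.inl ⟨x, hx', j', σ', Or.inl (by rw [h1, h2])⟩
      · exact Or.inr h
    · exact Or.inr (LAA y hy' z hz' _ hx).swap23.swap12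
    · rcases LAOO j σ j'' σ'' y hy' x₀ hx₀ z₀ hz₀ with ⟨h1, h2⟩ | h
      · exact Or.inl ⟨y, hy', j, σ, Or.inr (Or.inl (by rw [h1, h2]))⟩
      · exact Or.inr h.swap12
    · rcases LAOO j σ j' σ' z hz' x₀ hx₀ y₀ hy₀ with ⟨h1, h2⟩ | h
      · exact Or.inl ⟨z, hz', j, σ, Or.inr (Or.inr (by rw [h1, h2]))⟩
      · exact Or.inr h.swap12.swap23
    · exact Or.inr (LOOO j σ j' σ' j'' σ'' x₀ hx₀ y₀ hy₀ z₀ hz₀)

end Crest.Agent.R130
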