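import Mathlib
import Crest.Agent.R130.Geometry

/-!
Assembly: the smooth density of the bowtie and the three properties of its optimal plan.
-/

set_option autoImplicit false
set_option linter.unusedSectionVars false

open MeasureTheory Set Filter Topology Metric
open scoped ContDiff RealInnerProductSpace ENNReal
open Crest.AnalysisR.OT

namespace Crest.Agent.R130

variable {E : Type*} [NormedAddCommGroup E] [InnerProductSpace ℝ E] [FiniteDimensional ℝ E]
  [MeasurableSpace E] [BorelSpace E]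

theorem exists_base_density (vol : Measure E) [vol.IsAddHaarMeasure] {r : ℝ} (hr : 0 < r) :
    ∃ φ : E → ℝ, ContDiff ℝ ∞ φ ∧ (∀ x, 0 ≤ φ x) ∧ HasCompactSupport φ ∧ tsupport φ ⊆ ball 0 r ∧
      3 * ∫⁻ x, ENNReal.ofReal (φ x ^ 2) ∂vol = 1 := by
  let b : ContDiffBump (0 : E) := ⟨r / 4, r / 2, by positivity, by linarith⟩
  have hc : Continuous fun x => b x ^ 2 := b.continuous.pow 2
  have hs : HasCompactSupport fun x => b x ^ 2 :=
    b.hasCompactSupport.comp_left (g := fun t : ℝ => t ^ 2) (by simp)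
  have hI : 0 < ∫ x, b x ^ 2 ∂vol :=
    hc.integral_pos_of_hasCompactSupport_nonneg_nonzero hs (fun x => sq_nonneg _) (x := 0)
      (by rw [b.one_of_mem_closedBall (mem_closedBall_self b.rIn_pos.le)]; norm_num)
  set I := ∫ x, b x ^ 2 ∂vol with hIdef
  refine ⟨fun x => √(1 / (3 * I)) * b x, contDiff_const.mul b.contDiff,
    fun x => mul_nonneg (Real.sqrt_nonneg _) b.nonneg, b.hasCompactSupport.mul_left, ?_, ?_⟩
  · refine (tsupport_mul_subset_right (f := fun _ => √(1 / (3 * I))) (g := b)).trans ?_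
    rw [b.tsupport_eq]
    exact closedBall_subset_ball (show r / 2 < r by linarith)
  · have h1 : ∀ x, (√(1 / (3 * I)) * b x) ^ 2 = 1 / (3 * I) * b x ^ 2 := fun x => by
      rw [mul_pow, Real.sq_sqrt (by positivity)]
    simp only [h1]
    rw [← ofReal_integral_eq_lintegral_ofReal
      ((hc.integrable_of_hasCompactSupport hs).const_mul _)
      (Eventually.of_forall fun x => by positivity), integral_const_mul, ← hIdef,
      show (3 : ℝ≥0∞) = ENNReal.ofReal 3 by simp, ← ENNReal.ofReal_mul (by norm_num),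
      show 3 * (1 / (3 * I) * I) = 1 by field_simp]
    simp

theorem exists_density (vol : Measure E) [vol.IsAddHaarMeasure] {r : ℝ} (hr : 0 < r)
    {f g : Bool → Bool → E → E} (hD : ∀ j σ, LocDiffeo (ball 0 r) (f j σ) (g j σ))
    (hinj : ∀ j σ j' σ', ∀ x ∈ ball (0 : E) r, ∀ x' ∈ ball (0 : E) r,
      f j σ x = f j' σ' x' → j = j' ∧ σ = σ' ∧ x = x')
    (hout : ∀ j σ, ∀ x ∈ ball (0 : E) r, f j σ x ∉ ball (0 : E) r) :
    ∃ (ν : Measure E) (ψ : E → ℝ), (∀ᵐ x ∂ν, x ∈ ball (0 : E) r) ∧ 3 * ν univ = 1 ∧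
      ContDiff ℝ ∞ ψ ∧ (∀ x, 0 ≤ ψ x) ∧ HasCompactSupport ψ ∧
      (vol.withDensity fun x => ENNReal.ofReal (ψ x ^ 2)) = bowMeasure ν f := by
  obtain ⟨φ, hφ, hφ0, hφc, hφA, hφ1⟩ := exists_base_density vol hr
  choose ψ hψ hψ0 hψc hψs hψm using fun j σ => (hD j σ).push vol isOpen_ball hφ hφ0 hφc hφA
  have hφs : ∀ x, φ x ≠ 0 → x ∈ ball (0 : E) r := fun x hx => hφA (subset_tsupport _ hx)
  have hmφ : Measurable fun x => ENNReal.ofReal (φ x ^ 2) :=
    (hφ.continuous.pow 2).measurable.ennreal_ofReal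
  have hmψ : ∀ j σ, Measurable fun x => ENNReal.ofReal (ψ j σ x ^ 2) := fun j σ =>
    ((hψ j σ).continuous.pow 2).measurable.ennreal_ofReal
  have z1 : ∀ j σ x, φ x * ψ j σ x = 0 := by
    intro j σ x
    by_contra hn
    obtain ⟨x₀, h0, h1⟩ := hψs j σ (right_ne_zero_of_mul hn)
    exact hout j σ x₀ h0 (h1 ▸ hφs x (left_ne_zero_of_mul hn))
  have z2 : ∀ j σ j' σ' x, ¬ (j = j' ∧ σ = σ') → ψ j σ x * ψ j' σ' x = 0 := by
    intro j σ j' σ' x hne
    by_contra hn
    obtain ⟨x₀, h0, h1⟩ := hψs j σ (left_ne_zero_of_mul hn)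
    obtain ⟨x₁, h2, h3⟩ := hψs j' σ' (right_ne_zero_of_mul hn)
    have := hinj j σ j' σ' x₀ h0 x₁ h2 (h1.trans h3.symm)
    exact hne ⟨this.1, this.2.1⟩
  set k : ℝ := √(2⁻¹) with hk
  have hk2 : k ^ 2 = 2⁻¹ := Real.sq_sqrt (by norm_num)
  have hk0 : 0 ≤ k := Real.sqrt_nonneg _
  refine ⟨vol.withDensity fun x => ENNReal.ofReal (φ x ^ 2),
    fun x => φ x + k * (ψ true true x + ψ true false x + (ψ false true x + ψ false false x)),
    ?_, ?_, ?_, ?_, ?_, ?_⟩
  · rw [ae_withDensity_iff hmφ]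
    refine Eventually.of_forall fun x hx => hφs x ?_
    rintro h0
    simp [h0] at hx
  · rw [withDensity_apply _ MeasurableSet.univ, Measure.restrict_univ, hφ1]
  · exact hφ.add (contDiff_const.mul (((hψ _ _).add (hψ _ _)).add ((hψ _ _).add (hψ _ _))))
  · intro x
    have := hφ0 x
    have := hψ0 true true x
    have := hψ0 true false x
    have := hψ0 false true x
    have := hψ0 false false x
    positivity
  · exact hφc.add (HasCompactSupport.mul_left
      (((hψc _ _).add (hψc _ _)).add ((hψc _ _).add (hψc _ _))))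
  · simp only [bowMeasure, Fintype.sum_bool, hψm]
    simp only [← withDensity_smul _ (hmψ _ _)]
    rw [← withDensity_add_left ((hmψ _ _).const_smul _),
      ← withDensity_add_left ((hmψ _ _).const_smul _),
      ← withDensity_add_left (((hmψ _ _).const_smul _).add ((hmψ _ _).const_smul _)),
      ← withDensity_add_left hmφ]
    congr 1
    funext x
    have h1 : (φ x + k * (ψ true true x + ψ true false x + (ψ false true x + ψ false false x))) ^ 2
        = φ x ^ 2 + ((2⁻¹ * ψ true true x ^ 2 + 2⁻¹ * ψ true false x ^ 2) +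
          (2⁻¹ * ψ false true x ^ 2 + 2⁻¹ * ψ false false x ^ 2)) := by
      rw [← hk2]
      linear_combination 2 * k * (z1 true true x + z1 true false x + z1 false true x +
        z1 false false x) + 2 * k ^ 2 * (z2 true true true false x (by simp) +
        z2 true true false true x (by simp) + z2 true true false false x (by simp) +
        z2 true false false true x (by simp) + z2 true false false false x (by simp) +
        z2 false true false false x (by simp))
    have h2 : ∀ t : ℝ, ENNReal.ofReal (2⁻¹ * t) = 2⁻¹ * ENNReal.ofReal t := fun t => by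
      rw [ENNReal.ofReal_mul (by norm_num), ENNReal.ofReal_inv_of_pos two_pos]; simp
    simp only [Pi.add_apply, Pi.smul_apply, smul_eq_mul]
    rw [h1, ENNReal.ofReal_add (by positivity) (by positivity),
      ENNReal.ofReal_add (by positivity) (by positivity),
      ENNReal.ofReal_add (by positivity) (by positivity),
      ENNReal.ofReal_add (by positivity) (by positivity), h2, h2, h2, h2]

theorem main (vol : Measure E) [vol.IsAddHaarMeasure] {s : ℝ} (hs : 0 < s) {v : Bool → E}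
    (hv : ∀ j, ‖v j‖ = 1) (hvv : ⟪v false, v true⟫ = 0) :
    ∃ (ψ : E → ℝ) (μ : Measure E), ContDiff ℝ ∞ ψ ∧ (∀ x, 0 ≤ ψ x) ∧ HasCompactSupport ψ ∧
      (vol.withDensity fun x => ENNReal.ofReal (ψ x ^ 2)) = μ ∧ μ univ = 1 ∧
      ∃ π₀ : Measure (E × E × E), IsCoupling₃ μ π₀ ∧ ∫⁻ p, tripleCost s p ∂π₀ < ⊤ ∧
        (∀ π : Measure (E × E × E), IsCoupling₃ μ π →
          ∫⁻ p, tripleCost s p ∂π₀ ≤ ∫⁻ p, tripleCost s p ∂π) ∧
        (∀ T₂ T₃ : E → E, Measurable T₂ → Measurable T₃ → μ.map T₂ = μ → μ.map T₃ = μ →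
          ∫⁻ p, tripleCost s p ∂π₀ < ∫⁻ x, tripleCost s (x, T₂ x, T₃ x) ∂μ) ∧
        (∀ ε : ℝ≥0∞, 0 < ε → ∃ T₂ T₃ : E → E, Measurable T₂ ∧ Measurable T₃ ∧
          μ.map T₂ = μ ∧ μ.map T₃ = μ ∧
          ∫⁻ x, tripleCost s (x, T₂ x, T₃ x) ∂μ < ∫⁻ p, tripleCost s p ∂π₀ + ε) := by
  obtain ⟨r, hr, hr4, f, g, u, m, hu, hD, hfm, hum, htight, hdich⟩ := exists_bowtie hs hv hvv
  have hA4 : ball (0 : E) r ⊆ ball 0 (1 / 4) := ball_subset_ball hr4
  have hsep0 : ∀ j σ, ∀ x ∈ ball (0 : E) r, ∀ x' ∈ ball (0 : E) r, 1 / 2 ≤ ‖x - f j σ x'‖ := by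
    intro j σ x hx x' hx'
    have := le_norm_sub_of_ball (hA4 hx) (hfm j σ x' hx')
    rw [zero_sub, norm_neg, norm_ctr hv] at this
    linarith
  have hsep1 : ∀ j σ j' σ', ¬ (j = j' ∧ σ = σ') → ∀ x ∈ ball (0 : E) r, ∀ x' ∈ ball (0 : E) r,
      1 / 2 ≤ ‖f j σ x - f j' σ' x'‖ := by
    intro j σ j' σ' hne x hx x' hx'
    have := le_norm_sub_of_ball (hfm j σ x hx) (hfm j' σ' x' hx')
    have h2 := one_le_norm_ctr_sub hv hvv hne
    linarith
  have hinj : ∀ j σ j' σ', ∀ x ∈ ball (0 : E) r, ∀ x' ∈ ball (0 : E) r,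
      f j σ x = f j' σ' x' → j = j' ∧ σ = σ' ∧ x = x' := by
    intro j σ j' σ' x hx x' hx' h
    by_cases hne : j = j' ∧ σ = σ'
    · obtain ⟨rfl, rfl⟩ := hne
      exact ⟨rfl, rfl, by rw [← (hD j σ).left x hx, h, (hD j σ).left x' hx']⟩
    · have := hsep1 j σ j' σ' hne x hx x' hx'
      rw [h, sub_self, norm_zero] at this
      norm_num at this
  have hout : ∀ j σ, ∀ x ∈ ball (0 : E) r, f j σ x ∉ ball (0 : E) r := by
    intro j σ x hx h
    have := hsep0 j σ _ h x hx
    rw [sub_self, norm_zero] at this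
    norm_num at this
  obtain ⟨ν, ψ, hνA, hν1, hψ, hψ0, hψc, hψμ⟩ := exists_density vol hr hD hinj hout
  have hf : ∀ j σ, Measurable (f j σ) := fun j σ => (hD j σ).mf
  set μ := bowMeasure ν f with hμ
  have hμ1 : μ univ = 1 := by rw [hμ, bowMeasure_univ ν hf, hν1]
  have : IsProbabilityMeasure μ := ⟨hμ1⟩
  have hν0 : ν univ ≠ 0 := by
    intro h; rw [h] at hν1; simp at hν1
  have : IsFiniteMeasure ν := ⟨by
    by_contra h
    rw [not_lt_top_iff.1 h] at hν1; simp at hν1⟩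
  have : Nontrivial E := ⟨⟨v true, 0, fun h => by simpa [h] using hv true⟩⟩
  have : NullSingletonClass μ := by rw [← hψμ]; infer_instance
  set K := bowSet (ball (0 : E) r) f with hK
  have hKm : MeasurableSet K :=
    measurableSet_ball.union (MeasurableSet.iUnion fun j => MeasurableSet.iUnion fun σ =>
      (hD j σ).isOpen.measurableSet)
  have hKf : ∀ j σ, ∀ x ∈ ball (0 : E) r, f j σ x ∈ K := fun j σ x hx =>
    Or.inr (mem_iUnion.2 ⟨j, mem_iUnion.2 ⟨σ, mem_image_of_mem _ hx⟩⟩)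
  have hKae : ∀ᵐ x ∂μ, x ∈ K := bowMeasure_ae ν hf hνA hKm subset_union_left hKf
  have hm0 : 0 ≤ m := (abs_nonneg _).trans (hum 0 (Or.inl (mem_ball_self hr)))
  let U : E → ℝ≥0∞ := fun x => ENNReal.ofReal (u x + m)
  have hU : Measurable U := (hu.add_const m).ennreal_ofReal
  have hUsum : ∀ x ∈ K, ∀ y ∈ K, ∀ z ∈ K,
      U x + U y + U z = ENNReal.ofReal (u x + u y + u z + 3 * m) := by
    intro x hx y hy z hz
    have h1 := (abs_le.1 (hum x hx)).1
    have h2 := (abs_le.1 (hum y hy)).1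
    have h3 := (abs_le.1 (hum z hz)).1
    simp only [U]
    rw [← ENNReal.ofReal_add (by linarith) (by linarith),
      ← ENNReal.ofReal_add (by linarith) (by linarith)]
    congr 1; ring
  have hTri : ∀ p, IsTri (ball (0 : E) r) f p →
      (p.1 ∈ K ∧ p.2.1 ∈ K ∧ p.2.2 ∈ K) ∧ Tight s u p.1 p.2.1 p.2.2 ∧
        (1 / 2 ≤ ‖p.1 - p.2.1‖ ∧ 1 / 2 ≤ ‖p.1 - p.2.2‖) := by
    rintro p ⟨x, hx, j, σ, h⟩
    have h0 : Tight s u x (f j σ x) (f j (!σ) x) := by
      cases σ
      · exact htight j x hx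
      · exact (htight j x hx).swap23
    have hxK : x ∈ K := Or.inl hx
    have a1 := hsep0 j σ x hx x hx
    have a2 := hsep0 j (!σ) x hx x hx
    have a3 := hsep1 j σ j (!σ) (by simp) x hx x hx
    rcases h with rfl | rfl | rfl
    · exact ⟨⟨hxK, hKf _ _ x hx, hKf _ _ x hx⟩, h0, a1, a2⟩
    · exact ⟨⟨hKf _ _ x hx, hxK, hKf _ _ x hx⟩, h0.swap12, by rwa [norm_sub_rev], a3⟩
    · exact ⟨⟨hKf _ _ x hx, hKf _ _ x hx, hxK⟩, h0.swap12.swap23, a3, by rwa [norm_sub_rev]⟩
  have hTriEq : ∀ p, IsTri (ball (0 : E) r) f p →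
      tripleCost s p + ENNReal.ofReal (3 * m) = U p.1 + U p.2.1 + U p.2.2 := by
    intro p hp
    obtain ⟨⟨k1, k2, k3⟩, ⟨t0, t1⟩, -⟩ := hTri p hp
    rw [hUsum _ k1 _ k2 _ k3, ENNReal.ofReal_add t0 (by positivity), ← t1]
  have hStrict : ∀ x ∈ K, ∀ y ∈ K, ∀ z ∈ K, Strict s u x y z →
      U x + U y + U z < tripleCost s (x, y, z) + ENNReal.ofReal (3 * m) := by
    rintro x hx y hy z hz ⟨t, t0, t1, t2⟩
    have h1 := (abs_le.1 (hum x hx)).1
    have h2 := (abs_le.1 (hum y hy)).1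
    have h3 := (abs_le.1 (hum z hz)).1
    rw [hUsum x hx y hy z hz]
    calc ENNReal.ofReal (u x + u y + u z + 3 * m) < ENNReal.ofReal (t + 3 * m) :=
          (ENNReal.ofReal_lt_ofReal_iff_of_nonneg (by linarith)).2 (by linarith)
      _ = ENNReal.ofReal t + ENNReal.ofReal (3 * m) := ENNReal.ofReal_add t0 (by positivity)
      _ ≤ _ := by gcongr
  have hcoup := bowPlan_coupling ν hf
  have hUfin : ∫⁻ x, U x ∂μ ≠ ⊤ := by
    refine ne_top_of_le_ne_top (b := ∫⁻ _, ENNReal.ofReal (m + m) ∂μ) (by simp) ?_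
    refine lintegral_mono_ae ?_
    filter_upwards [hKae] with x hx
    exact ENNReal.ofReal_le_ofReal (by linarith [(abs_le.1 (hum x hx)).2])
  obtain ⟨hfin, hopt, hcs⟩ := duality (s := s) hU hUfin (M := ENNReal.ofReal (3 * m))
    ENNReal.ofReal_ne_top hKae (by
      intro p k1 k2 k3
      rcases hdich _ k1 _ k2 _ k3 with h | h
      · exact (hTriEq p h).ge
      · exact (hStrict _ k1 _ k2 _ k3 h).le) hcoup
    (bowPlan_ae ν hf hνA (measurableSet_eq_fun
      ((measurable_tripleCost s).add measurable_const)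
      (((hU.comp measurable_fst).add (hU.comp measurable_snd.fst)).add
        (hU.comp measurable_snd.snd))) hTriEq)
  refine ⟨ψ, μ, hψ, hψ0, hψc, hψμ, hμ1, bowPlan ν f, hcoup, hfin, hopt, ?_, ?_⟩
  · intro T₂ T₃ hT₂ hT₃ h₂ h₃
    by_contra hn
    have hT : Measurable fun x => (x, T₂ x, T₃ x) := measurable_id.prodMk (hT₂.prodMk hT₃)
    have hc : IsCoupling₃ μ (μ.map fun x => (x, T₂ x, T₃ x)) := by
      refine ⟨?_, ?_, ?_⟩
      · rw [Measure.map_map measurable_fst hT]; exact Measure.map_id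
      · rw [Measure.map_map measurable_snd.fst hT]; exact h₂
      · rw [Measure.map_map measurable_snd.snd hT]; exact h₃
    have h1 := hcs _ hc (by rw [lintegral_map (measurable_tripleCost s) hT]; exact not_lt.1 hn)
    have h2 := ae_of_ae_map hT.aemeasurable (h1.and (coupling_ae_mem hc hKae))
    refine no_monge ν hν0 hf measurableSet_ball hνA hinj hout hT₂ hT₃ h₂ h₃ ?_
    filter_upwards [h2] with x hx
    obtain ⟨hx1, k1, k2, k3⟩ := hx
    exact (hdich _ k1 _ k2 _ k3).resolve_right fun h =>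
      absurd (hStrict _ k1 _ k2 _ k3 h) (not_lt.2 hx1)
  · refine exists_monge_near hs.le μ _ hcoup hfin ?_
    refine bowPlan_ae ν hf hνA ?_ fun p hp => (hTri p hp).2.2
    exact (measurableSet_le measurable_const (measurable_fst.sub measurable_snd.fst).norm).inter
      (measurableSet_le measurable_const (measurable_fst.sub measurable_snd.snd).norm)

end Crest.Agent.R130
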